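import Vale.Agent.P249.GaussMom

/-!
# P249 : moments of the clipped Gaussian vector
-/

namespace P249

open MeasureTheory ProbabilityTheory
open scoped ENNReal

/-- clipping to `[-1, 1]` -/
noncomputable def clip (t : ℝ) : ℝ := max (-1) (min 1 t)

theorem clip_ge (t : ℝ) : -1 ≤ clip t := le_max_left _ _

theorem clip_le (t : ℝ) : clip t ≤ 1 := max_le (by norm_num) (min_le_left _ _)

theorem measurable_clip : Measurable clip := measurable_const.max (measurable_const.min measurable_id)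

theorem clip_lip (s t : ℝ) : |clip s - clip t| ≤ |s - t| := by
  unfold clip
  rw [abs_le]
  rcases abs_cases (s - t) with ⟨h, h'⟩ | ⟨h, h'⟩ <;> rw [h] <;> constructor <;>
    rcases max_cases (-1 : ℝ) (min 1 s) with ⟨h1, h1'⟩ | ⟨h1, h1'⟩ <;>
    rcases max_cases (-1 : ℝ) (min 1 t) with ⟨h2, h2'⟩ | ⟨h2, h2'⟩ <;>
    rcases min_cases (1 : ℝ) s with ⟨h3, h3'⟩ | ⟨h3, h3'⟩ <;>
    rcases min_cases (1 : ℝ) t with ⟨h4, h4'⟩ | ⟨h4, h4'⟩ <;> linarith

theorem clip_nonneg {t : ℝ} (ht : 0 ≤ t) : 0 ≤ clip t :=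
  le_max_of_le_right (le_min (by norm_num) ht)

theorem clip_neg {t : ℝ} (ht : t < 0) : clip t < 0 :=
  max_lt (by norm_num) (min_lt_of_right_lt ht)

/-- the second moment -/
noncomputable def VV : ℝ≥0∞ :=
  ∫⁻ s, ∫⁻ t, ENNReal.ofReal ((clip s - clip t) ^ 2) ∂(gaussianReal 0 1) ∂(gaussianReal 0 1)

theorem VV_ne_top : VV ≠ ∞ := by
  have h : VV ≤ ENNReal.ofReal 4 := by
    unfold VV
    calc ∫⁻ s, ∫⁻ t, ENNReal.ofReal ((clip s - clip t) ^ 2) ∂(gaussianReal 0 1) ∂(gaussianReal 0 1)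
        ≤ ∫⁻ _s, ∫⁻ _t, ENNReal.ofReal 4 ∂(gaussianReal 0 1) ∂(gaussianReal 0 1) := by
          refine lintegral_mono fun s => lintegral_mono fun t => ENNReal.ofReal_le_ofReal ?_
          nlinarith [clip_ge s, clip_le s, clip_ge t, clip_le t]
      _ = ENNReal.ofReal 4 := by simp
  exact ne_top_of_le_ne_top ENNReal.ofReal_ne_top h

theorem pos_of_open {U : Set ℝ} (hU : IsOpen U) (hne : U.Nonempty) : (gaussianReal 0 1) U ≠ 0 := by
  intro h
  have h1 := gaussianReal_absolutelyContinuous' 0 one_ne_zero h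
  exact (hU.measure_pos volume hne).ne' h1

theorem VV_ne_zero : VV ≠ 0 := by
  intro h
  unfold VV at h
  have hm : Measurable fun q : ℝ × ℝ => ENNReal.ofReal ((clip q.1 - clip q.2) ^ 2) :=
    (((measurable_clip.comp measurable_fst).sub
      (measurable_clip.comp measurable_snd)).pow_const 2).ennreal_ofReal
  rw [lintegral_eq_zero_iff hm.lintegral_prod_right'] at h
  obtain ⟨s, hs, hs2⟩ : ∃ s : ℝ, s ∈ Set.Ioi (0 : ℝ) ∧
      ∫⁻ t, ENNReal.ofReal ((clip s - clip t) ^ 2) ∂(gaussianReal 0 1) = 0 := by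
    by_contra hcon
    push Not at hcon
    refine pos_of_open (U := Set.Ioi (0 : ℝ)) isOpen_Ioi Set.nonempty_Ioi (measure_mono_null (fun s hs => ?_) h)
    exact hcon s hs
  have hm2 : Measurable fun t : ℝ => ENNReal.ofReal ((clip s - clip t) ^ 2) :=
    hm.comp measurable_prodMk_left
  rw [lintegral_eq_zero_iff hm2] at hs2
  obtain ⟨t, ht, ht2⟩ : ∃ t : ℝ, t ∈ Set.Iio (0 : ℝ) ∧
      ENNReal.ofReal ((clip s - clip t) ^ 2) = 0 := by
    by_contra hcon
    push Not at hcon
    refine pos_of_open (U := Set.Iio (0 : ℝ)) isOpen_Iio Set.nonempty_Iio (measure_mono_null (fun s hs => ?_) hs2)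
    exact hcon s hs
  rw [ENNReal.ofReal_eq_zero] at ht2
  have h1 := clip_nonneg (le_of_lt hs : (0 : ℝ) ≤ s)
  have h2 := clip_neg (ht : t < 0)
  nlinarith

/-- coordinatewise clipping -/
noncomputable def clipv {k : ℕ} (x : Fin k → ℝ) : Fin k → ℝ := fun i => clip (x i)

theorem measurable_clipv {k : ℕ} : Measurable (clipv : (Fin k → ℝ) → Fin k → ℝ) :=
  measurable_pi_lambda _ fun i => measurable_clip.comp (measurable_pi_apply i)

theorem sq_clipv_le {k : ℕ} (x y : Fin k → ℝ) : sq (clipv x - clipv y) ≤ sq (x - y) := by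
  unfold sq
  refine Finset.sum_le_sum fun i _ => ?_
  exact sq_le_sq.2 (clip_lip (x i) (y i))

theorem second_moment (k : ℕ) :
    ∫⁻ x, ∫⁻ y, ENNReal.ofReal (sq (clipv x - clipv y)) ∂(gk k) ∂(gk k) = k * VV := by
  have hm : Measurable fun q : ℝ × ℝ => ENNReal.ofReal ((clip q.1 - clip q.2) ^ 2) :=
    (((measurable_clip.comp measurable_fst).sub
      (measurable_clip.comp measurable_snd)).pow_const 2).ennreal_ofReal
  have h1 : ∀ x y : Fin k → ℝ, ENNReal.ofReal (sq (clipv x - clipv y)) =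
      ∑ i, ENNReal.ofReal ((clip (x i) - clip (y i)) ^ 2) := by
    intro x y
    rw [sq, ENNReal.ofReal_sum_of_nonneg fun i _ => sq_nonneg _]
    rfl
  simp_rw [h1]
  have h2 : ∀ x : Fin k → ℝ, ∫⁻ y, ∑ i, ENNReal.ofReal ((clip (x i) - clip (y i)) ^ 2) ∂(gk k) =
      ∑ i, ∫⁻ t, ENNReal.ofReal ((clip (x i) - clip t) ^ 2) ∂(gaussianReal 0 1) := by
    intro x
    have hmi : ∀ i : Fin k, Measurable fun y : Fin k → ℝ =>
        ENNReal.ofReal ((clip (x i) - clip (y i)) ^ 2) := fun i =>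
      (hm.comp measurable_prodMk_left).comp (measurable_pi_apply i)
    rw [lintegral_finsetSum _ fun i _ => hmi i]
    refine Finset.sum_congr rfl fun i _ => ?_
    exact (measurePreserving_eval (fun _ : Fin k => gaussianReal 0 1) i).lintegral_comp
      (hm.comp measurable_prodMk_left)
  simp_rw [h2]
  have hm3 : Measurable fun s : ℝ =>
      ∫⁻ t, ENNReal.ofReal ((clip s - clip t) ^ 2) ∂(gaussianReal 0 1) := hm.lintegral_prod_right'
  have hm4 : ∀ i : Fin k, Measurable fun x : Fin k → ℝ =>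
      ∫⁻ t, ENNReal.ofReal ((clip (x i) - clip t) ^ 2) ∂(gaussianReal 0 1) := fun i =>
    hm3.comp (measurable_pi_apply i)
  rw [lintegral_finsetSum _ fun i _ => hm4 i]
  have h3 : ∀ i : Fin k, ∫⁻ x : Fin k → ℝ,
      (∫⁻ t, ENNReal.ofReal ((clip (x i) - clip t) ^ 2) ∂(gaussianReal 0 1)) ∂(gk k) = VV := by
    intro i
    exact (measurePreserving_eval (fun _ : Fin k => gaussianReal 0 1) i).lintegral_comp hm3
  rw [Finset.sum_congr rfl fun i _ => h3 i]
  simp

/-- lower bound for the `p`-th moment -/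
theorem moment_ge {k : ℕ} (hk : 1 ≤ k) {p : ℝ} (hp : 2 < p) :
    ENNReal.ofReal ((k * VV.toReal) ^ (p / 2)) ≤
      ∫⁻ x, ∫⁻ y, ENNReal.ofReal (√(sq (clipv x - clipv y)) ^ p) ∂(gk k) ∂(gk k) := by
  have hv : 0 < VV.toReal := ENNReal.toReal_pos VV_ne_zero VV_ne_top
  have hk0 : (0 : ℝ) < k := by exact_mod_cast hk
  set A : ℝ := k * VV.toReal with hA
  have hA0 : 0 < A := by positivity
  -- tangent line inequality
  have htan : ∀ u : ℝ, 0 ≤ u → p / 2 * A ^ (p / 2 - 1) * u ≤ √u ^ p + (p / 2 - 1) * A ^ (p / 2) := by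
    intro u hu
    have h1 : √u ^ p = u ^ (p / 2) := by
      rw [Real.sqrt_eq_rpow, ← Real.rpow_mul hu]
      congr 1
      ring
    rw [h1]
    have h2 := one_add_mul_self_le_rpow_one_add (s := u / A - 1) (p := p / 2)
      (by have : 0 ≤ u / A := by positivity
          linarith) (by linarith)
    have h3 : (1 + (u / A - 1)) ^ (p / 2) = u ^ (p / 2) / A ^ (p / 2) := by
      rw [add_sub_cancel, Real.div_rpow hu hA0.le]
    rw [h3, le_div_iff₀ (by positivity)] at h2
    have h4 : A ^ (p / 2) = A ^ (p / 2 - 1) * A := by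
      rw [← Real.rpow_add_one hA0.ne']
      congr 1
      ring
    have h5 : (1 + p / 2 * (u / A - 1)) * A ^ (p / 2) =
        p / 2 * A ^ (p / 2 - 1) * u - (p / 2 - 1) * A ^ (p / 2) := by
      rw [h4]
      field_simp
      ring
    linarith
  have hVV : VV = ENNReal.ofReal VV.toReal := (ENNReal.ofReal_toReal VV_ne_top).symm
  have hsqm : Measurable fun q : (Fin k → ℝ) × (Fin k → ℝ) => sq (clipv q.1 - clipv q.2) := by
    unfold sq
    refine Finset.measurable_fun_sum _ fun i _ => ?_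
    exact (((measurable_pi_apply i).comp (measurable_clipv.comp measurable_fst)).sub
      ((measurable_pi_apply i).comp (measurable_clipv.comp measurable_snd))).pow_const 2
  have hmain : ENNReal.ofReal (p / 2 * A ^ (p / 2 - 1) * A) ≤
      (∫⁻ x, ∫⁻ y, ENNReal.ofReal (√(sq (clipv x - clipv y)) ^ p) ∂(gk k) ∂(gk k)) +
        ENNReal.ofReal ((p / 2 - 1) * A ^ (p / 2)) := by
    have hc0 : 0 ≤ p / 2 * A ^ (p / 2 - 1) := by positivity
    calc ENNReal.ofReal (p / 2 * A ^ (p / 2 - 1) * A)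
        = ENNReal.ofReal (p / 2 * A ^ (p / 2 - 1)) *
          ∫⁻ x, ∫⁻ y, ENNReal.ofReal (sq (clipv x - clipv y)) ∂(gk k) ∂(gk k) := by
          rw [second_moment, hVV, ENNReal.ofReal_mul hc0, hA, ENNReal.ofReal_mul hk0.le]
          simp
      _ = ∫⁻ x, ∫⁻ y, ENNReal.ofReal (p / 2 * A ^ (p / 2 - 1)) *
            ENNReal.ofReal (sq (clipv x - clipv y)) ∂(gk k) ∂(gk k) := by
          rw [← lintegral_const_mul' _ _ ENNReal.ofReal_ne_top]
          refine lintegral_congr fun x => ?_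
          rw [← lintegral_const_mul' _ _ ENNReal.ofReal_ne_top]
      _ ≤ ∫⁻ x, ∫⁻ y, (ENNReal.ofReal (√(sq (clipv x - clipv y)) ^ p) +
            ENNReal.ofReal ((p / 2 - 1) * A ^ (p / 2))) ∂(gk k) ∂(gk k) := by
          refine lintegral_mono fun x => lintegral_mono fun y => ?_
          rw [← ENNReal.ofReal_mul hc0, ← ENNReal.ofReal_add (by positivity)
            (mul_nonneg (by linarith) (by positivity))]
          exact ENNReal.ofReal_le_ofReal (htan _ (Finset.sum_nonneg fun i _ => sq_nonneg _))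
      _ = _ := by
          have hm1 : ∀ x, Measurable fun y =>
              ENNReal.ofReal (√(sq (clipv x - clipv y)) ^ p) := fun x =>
            ((hsqm.comp measurable_prodMk_left).sqrt.pow_const p).ennreal_ofReal
          have h1 : ∀ x : Fin k → ℝ, ∫⁻ y, (ENNReal.ofReal (√(sq (clipv x - clipv y)) ^ p) +
              ENNReal.ofReal ((p / 2 - 1) * A ^ (p / 2))) ∂(gk k) =
              (∫⁻ y, ENNReal.ofReal (√(sq (clipv x - clipv y)) ^ p) ∂(gk k)) +
              ENNReal.ofReal ((p / 2 - 1) * A ^ (p / 2)) := by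
            intro x
            rw [lintegral_add_right _ measurable_const]
            simp
          simp_rw [h1]
          rw [lintegral_add_right _ measurable_const]
          simp
  have h6 : p / 2 * A ^ (p / 2 - 1) * A = A ^ (p / 2) + (p / 2 - 1) * A ^ (p / 2) := by
    have h4 : A ^ (p / 2) = A ^ (p / 2 - 1) * A := by
      rw [← Real.rpow_add_one hA0.ne']
      congr 1
      ring
    rw [h4]
    ring
  rw [h6, ENNReal.ofReal_add (by positivity) (mul_nonneg (by linarith) (by positivity))] at hmain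
  exact (ENNReal.add_le_add_iff_right ENNReal.ofReal_ne_top).1 hmain

end P249
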