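import Mathlib

/-!
# P249 : definitions
-/

namespace P249

open MeasureTheory

/-- the norm of `ℓ_p^d`: `(∑ k, |y_k|^p)^(1/p)` -/
noncomputable def ellNorm (p : ℝ) {d : ℕ} (y : Fin d → ℝ) : ℝ := (∑ k, |y k| ^ p) ^ (1 / p)

/-- the map `f` into `ℓ_p^d` has distortion at most `D` on the finite set `X ⊂ L_p(μ)` -/
def DistortionLE {α : Type*} [MeasurableSpace α] {μ : Measure α} (p D : ℝ)
    (X : Finset (Lp ℝ (ENNReal.ofReal p) μ)) {d : ℕ}
    (f : Lp ℝ (ENNReal.ofReal p) μ → Fin d → ℝ) : Prop :=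
  ∃ s : ℝ, 0 < s ∧ ∀ x ∈ X, ∀ x' ∈ X,
    s * ‖x - x'‖ ≤ ellNorm p (f x - f x') ∧ ellNorm p (f x - f x') ≤ D * s * ‖x - x'‖

/-- the dimension `d` suffices: every `n`-point subset of every `L_p` space admits a map into
`ℓ_p^d` with distortion at most `D` -/
def Suffices.{u} (p D : ℝ) (n d : ℕ) : Prop :=
  ∀ (α : Type u) [MeasurableSpace α] (μ : Measure α) (X : Finset (Lp ℝ (ENNReal.ofReal p) μ)),
    X.card = n → ∃ f : Lp ℝ (ENNReal.ofReal p) μ → Fin d → ℝ, DistortionLE p D X f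

/-- `d_p(n, D)`: the least dimension that suffices -/
noncomputable def dp.{u} (p D : ℝ) (n : ℕ) : ℕ := sInf {d | Suffices.{u} p D n d}

end P249
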