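import Vale.Agent.P074.PL

/-!
# P249 : concentration of Lipschitz functions of a Gaussian vector (Maurey's property)
-/

namespace P249

open MeasureTheory ProbabilityTheory
open scoped ENNReal

/-- the standard Gaussian measure on `ℝ^k` -/
noncomputable def gk (k : ℕ) : Measure (Fin k → ℝ) := Measure.pi fun _ => gaussianReal 0 1

instance (k : ℕ) : IsProbabilityMeasure (gk k) := by unfold gk; infer_instance

theorem volume_eq_gk (k : ℕ) :
    (volume : Measure (Fin k → ℝ)) =
      (gk k).withDensity (fun y => ∏ i, (gaussianPDF 0 1 (y i))⁻¹) := by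
  have hm : Measurable (fun x : ℝ => (gaussianPDF 0 1 x)⁻¹) := (measurable_gaussianPDF 0 1).inv
  rw [volume_pi]
  refine Measure.pi_eq fun s hs => ?_
  rw [withDensity_apply _ (MeasurableSet.univ_pi hs),
    ← lintegral_indicator (MeasurableSet.univ_pi hs)]
  have h1 : ∀ y : Fin k → ℝ, (Set.univ.pi s).indicator
      (fun y => ∏ i, (gaussianPDF 0 1 (y i))⁻¹) y =
      ∏ i, (s i).indicator (fun x => (gaussianPDF 0 1 x)⁻¹) (y i) := by
    intro y
    by_cases hy : y ∈ Set.univ.pi s
    · rw [Set.indicator_of_mem hy]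
      refine Finset.prod_congr rfl fun i _ => ?_
      rw [Set.indicator_of_mem (hy i (Set.mem_univ i))]
    · rw [Set.indicator_of_notMem hy]
      have : ∃ i, y i ∉ s i := by
        by_contra hcon
        push Not at hcon
        exact hy fun i _ => hcon i
      obtain ⟨i, hi⟩ := this
      exact (Finset.prod_eq_zero (Finset.mem_univ i) (Set.indicator_of_notMem hi _)).symm
  simp_rw [h1]
  have hind : iIndepFun (fun i (y : Fin k → ℝ) =>
      (s i).indicator (fun x => (gaussianPDF 0 1 x)⁻¹) (y i)) (gk k) :=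
    iIndepFun_pi (X := fun i => (s i).indicator (fun x => (gaussianPDF 0 1 x)⁻¹))
      (fun i => (hm.indicator (hs i)).aemeasurable)
  rw [lintegral_prod_eq_prod_lintegral_of_indepFun Finset.univ _ hind
    (fun i => (hm.indicator (hs i)).comp (measurable_pi_apply i))]
  refine Finset.prod_congr rfl fun i _ => ?_
  have h2 : ∫⁻ y : Fin k → ℝ, (s i).indicator (fun x => (gaussianPDF 0 1 x)⁻¹) (y i) ∂(gk k) =
      ∫⁻ x, (s i).indicator (fun x => (gaussianPDF 0 1 x)⁻¹) x ∂(gaussianReal 0 1) :=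
    (measurePreserving_eval (fun _ : Fin k => gaussianReal 0 1) i).lintegral_comp
      (hm.indicator (hs i))
  rw [h2, lintegral_indicator (hs i), ← withDensity_apply _ (hs i),
    gaussianReal_of_var_ne_zero 0 one_ne_zero]
  have h3 := withDensity_inv_same (μ := (volume : Measure ℝ)) (measurable_gaussianPDF 0 1)
    (Filter.Eventually.of_forall fun x => (gaussianPDF_pos 0 one_ne_zero x).ne')
    (Filter.Eventually.of_forall fun x => gaussianPDF_ne_top)
  rw [h3]

theorem gk_eq (k : ℕ) :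
    gk k = (volume : Measure (Fin k → ℝ)).withDensity (fun y => ∏ i, gaussianPDF 0 1 (y i)) := by
  have hm1 : Measurable (fun y : Fin k → ℝ => ∏ i, (gaussianPDF 0 1 (y i))⁻¹) :=
    Finset.measurable_fun_prod _ fun i _ =>
      ((measurable_gaussianPDF 0 1).comp (measurable_pi_apply i)).inv
  have hm2 : Measurable (fun y : Fin k → ℝ => ∏ i, gaussianPDF 0 1 (y i)) :=
    Finset.measurable_fun_prod _ fun i _ => (measurable_gaussianPDF 0 1).comp (measurable_pi_apply i)
  conv_rhs => rw [volume_eq_gk k]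
  rw [← withDensity_mul _ hm1 hm2]
  have h1 : ((fun y : Fin k → ℝ => ∏ i, (gaussianPDF 0 1 (y i))⁻¹) *
      fun y => ∏ i, gaussianPDF 0 1 (y i)) = fun _ => 1 := by
    ext y
    simp only [Pi.mul_apply]
    rw [← Finset.prod_mul_distrib]
    refine Finset.prod_eq_one fun i _ => ?_
    exact ENNReal.inv_mul_cancel (gaussianPDF_pos 0 one_ne_zero _).ne' gaussianPDF_ne_top
  rw [h1, withDensity_const, one_smul]

/-- the squared Euclidean norm of a vector of `ℝ^k` -/
noncomputable def sq {k : ℕ} (x : Fin k → ℝ) : ℝ := ∑ i, x i ^ 2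

theorem prod_pdf {k : ℕ} (y : Fin k → ℝ) :
    ∏ i, gaussianPDF 0 1 (y i) =
      ENNReal.ofReal ((√(2 * Real.pi))⁻¹ ^ k * Real.exp (-(sq y) / 2)) := by
  have h1 : ∀ i, gaussianPDF 0 1 (y i) =
      ENNReal.ofReal ((√(2 * Real.pi))⁻¹ * Real.exp (-(y i) ^ 2 / 2)) := by
    intro i
    rw [gaussianPDF, gaussianPDFReal]
    simp
  simp_rw [h1]
  rw [← ENNReal.ofReal_prod_of_nonneg (fun i _ => by positivity), Finset.prod_mul_distrib,
    ← Real.exp_sum, Finset.prod_const, Finset.card_univ, Fintype.card_fin, ← Finset.sum_div]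
  congr 3
  rw [sq, Finset.sum_neg_distrib]

/-- Maurey's property for Lipschitz functions -/
theorem maurey {k : ℕ} (G : (Fin k → ℝ) → ℝ) (hG : Measurable G)
    (hL : ∀ x y, G x - G y ≤ √(sq (x - y))) :
    (∫⁻ x, ENNReal.ofReal (Real.exp (G x)) ∂(gk k)) *
      (∫⁻ x, ENNReal.ofReal (Real.exp (-G x)) ∂(gk k)) ≤ ENNReal.ofReal (Real.exp 1) := by
  set w : (Fin k → ℝ) → ℝ≥0∞ := fun y => ∏ i, gaussianPDF 0 1 (y i) with hw
  have hwm : Measurable w :=
    Finset.measurable_fun_prod _ fun i _ => (measurable_gaussianPDF 0 1).comp (measurable_pi_apply i)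
  have hw1 : ∫⁻ x, w x = 1 := by
    have h1 : (gk k) Set.univ = 1 := measure_univ
    rw [gk_eq, withDensity_apply _ MeasurableSet.univ, Measure.restrict_univ] at h1
    exact h1
  have hconv : ∀ f : (Fin k → ℝ) → ℝ≥0∞, Measurable f →
      ∫⁻ x, f x ∂(gk k) = ∫⁻ x, w x * f x := by
    intro f hf
    rw [gk_eq, lintegral_withDensity_eq_lintegral_mul _ hwm hf]
    rfl
  have hm1 : Measurable fun x => ENNReal.ofReal (Real.exp (G x)) :=
    (Real.measurable_exp.comp hG).ennreal_ofReal
  have hm2 : Measurable fun x => ENNReal.ofReal (Real.exp (-G x)) :=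
    (Real.measurable_exp.comp hG.neg).ennreal_ofReal
  rw [hconv _ hm1, hconv _ hm2]
  have hPL := P074.pl_pi k (fun x => w x * ENNReal.ofReal (Real.exp (G x)))
    (fun x => w x * ENNReal.ofReal (Real.exp (-G x)))
    (fun x => w x * ENNReal.ofReal (Real.exp (1 / 2))) (hwm.mul hm1) (hwm.mul hm2)
    (hwm.mul_const _) ?_
  · refine hPL.trans (le_of_eq ?_)
    rw [lintegral_mul_const _ hwm, hw1, one_mul, ← ENNReal.ofReal_pow (Real.exp_pos _).le,
      ← Real.exp_nat_mul]
    norm_num
  · intro x y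
    simp only [hw]
    rw [prod_pdf, prod_pdf, prod_pdf, ← ENNReal.ofReal_mul (by positivity),
      ← ENNReal.ofReal_mul (by positivity), ← ENNReal.ofReal_mul (by positivity),
      ← ENNReal.ofReal_mul (by positivity), ← ENNReal.ofReal_pow (by positivity)]
    refine ENNReal.ofReal_le_ofReal ?_
    set c : ℝ := (√(2 * Real.pi))⁻¹ ^ k with hc
    have hc0 : 0 < c := by positivity
    have hpar : sq x + sq y = 2 * sq ((1 / 2 : ℝ) • (x + y)) + sq (x - y) / 2 := by
      simp only [sq]
      rw [Finset.mul_sum, Finset.sum_div, ← Finset.sum_add_distrib, ← Finset.sum_add_distrib]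
      refine Finset.sum_congr rfl fun i _ => ?_
      simp only [Pi.smul_apply, Pi.add_apply, Pi.sub_apply, smul_eq_mul]
      ring
    have hs0 : 0 ≤ sq (x - y) := Finset.sum_nonneg fun i _ => sq_nonneg _
    have hsq : √(sq (x - y)) ^ 2 = sq (x - y) := Real.sq_sqrt hs0
    have hexp : -sq x / 2 + G x + (-sq y / 2 + -G y) ≤
        2 * (-sq ((1 / 2 : ℝ) • (x + y)) / 2 + 1 / 2) := by
      have := hL x y
      nlinarith [sq_nonneg (√(sq (x - y)) / 2 - 1)]
    calc c * Real.exp (-sq x / 2) * Real.exp (G x) *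
          (c * Real.exp (-sq y / 2) * Real.exp (-G y))
        = c ^ 2 * Real.exp (-sq x / 2 + G x + (-sq y / 2 + -G y)) := by
          rw [Real.exp_add, Real.exp_add, Real.exp_add]
          ring
      _ ≤ c ^ 2 * Real.exp (2 * (-sq ((1 / 2 : ℝ) • (x + y)) / 2 + 1 / 2)) := by
          gcongr
      _ = (c * Real.exp (-sq ((1 / 2 : ℝ) • (x + y)) / 2) * Real.exp (1 / 2)) ^ 2 := by
          rw [two_mul, Real.exp_add, Real.exp_add]
          ring

theorem abs_rpow_le {p : ℝ} (hp : 0 < p) (t : ℝ) :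
    |t| ^ p ≤ p ^ p * (Real.exp t + Real.exp (-t)) := by
  have h1 : |t| / p ≤ Real.exp (|t| / p) := by
    have := Real.add_one_le_exp (|t| / p)
    linarith
  have h2 : |t| ≤ p * Real.exp (|t| / p) := by
    rw [div_le_iff₀ hp] at h1
    linarith
  have h3 : |t| ^ p ≤ p ^ p * Real.exp |t| := by
    calc |t| ^ p ≤ (p * Real.exp (|t| / p)) ^ p := Real.rpow_le_rpow (abs_nonneg _) h2 hp.le
      _ = p ^ p * Real.exp |t| := by
        rw [Real.mul_rpow hp.le (Real.exp_pos _).le, ← Real.exp_mul, div_mul_cancel₀ _ hp.ne']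
  refine h3.trans (mul_le_mul_of_nonneg_left ?_ (by positivity))
  rcases abs_cases t with ⟨h, _⟩ | ⟨h, _⟩
  · rw [h]
    have := Real.exp_pos (-t)
    linarith
  · rw [h]
    have := Real.exp_pos t
    linarith

/-- moments of the increments of a Lipschitz function of a Gaussian vector -/
theorem moment {k : ℕ} {p : ℝ} (hp : 0 < p) (G : (Fin k → ℝ) → ℝ) (hG : Measurable G) {K : ℝ}
    (hK : 0 < K) (hL : ∀ x y, G x - G y ≤ K * √(sq (x - y))) :
    ∫⁻ x, ∫⁻ y, ENNReal.ofReal (|G x - G y| ^ p) ∂(gk k) ∂(gk k) ≤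
      ENNReal.ofReal (2 * Real.exp 1 * p ^ p * K ^ p) := by
  set g : (Fin k → ℝ) → ℝ := fun x => G x / K with hg
  have hgm : Measurable g := hG.div_const K
  have hgL : ∀ x y, g x - g y ≤ √(sq (x - y)) := by
    intro x y
    have h : g x - g y = (G x - G y) / K := by
      simp only [hg]
      ring
    rw [h, div_le_iff₀ hK]
    have := hL x y
    linarith
  have hm := maurey g hgm hgL
  set a : ℝ≥0∞ := ∫⁻ x, ENNReal.ofReal (Real.exp (g x)) ∂(gk k) with ha
  set b : ℝ≥0∞ := ∫⁻ x, ENNReal.ofReal (Real.exp (-g x)) ∂(gk k) with hb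
  have hm1 : Measurable fun x => ENNReal.ofReal (Real.exp (g x)) :=
    (Real.measurable_exp.comp hgm).ennreal_ofReal
  have hm2 : Measurable fun x => ENNReal.ofReal (Real.exp (-g x)) :=
    (Real.measurable_exp.comp hgm.neg).ennreal_ofReal
  have hpt : ∀ x y, ENNReal.ofReal (|G x - G y| ^ p) ≤
      ENNReal.ofReal (K ^ p * p ^ p) *
        (ENNReal.ofReal (Real.exp (g x)) * ENNReal.ofReal (Real.exp (-g y)) +
          ENNReal.ofReal (Real.exp (-g x)) * ENNReal.ofReal (Real.exp (g y))) := by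
    intro x y
    rw [← ENNReal.ofReal_mul (Real.exp_pos _).le, ← ENNReal.ofReal_mul (Real.exp_pos _).le,
      ← ENNReal.ofReal_add (by positivity) (by positivity), ← ENNReal.ofReal_mul (by positivity)]
    refine ENNReal.ofReal_le_ofReal ?_
    have h1 : G x - G y = K * (g x - g y) := by
      simp only [hg]
      field_simp
    rw [h1, abs_mul, abs_of_pos hK, Real.mul_rpow hK.le (abs_nonneg _), mul_assoc]
    refine mul_le_mul_of_nonneg_left ?_ (by positivity)
    refine (abs_rpow_le hp _).trans (le_of_eq ?_)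
    rw [← Real.exp_add, ← Real.exp_add]
    congr 3
    ring
  calc ∫⁻ x, ∫⁻ y, ENNReal.ofReal (|G x - G y| ^ p) ∂(gk k) ∂(gk k)
      ≤ ∫⁻ x, ∫⁻ y, ENNReal.ofReal (K ^ p * p ^ p) *
        (ENNReal.ofReal (Real.exp (g x)) * ENNReal.ofReal (Real.exp (-g y)) +
          ENNReal.ofReal (Real.exp (-g x)) * ENNReal.ofReal (Real.exp (g y))) ∂(gk k) ∂(gk k) :=
        lintegral_mono fun x => lintegral_mono fun y => hpt x y
    _ = ∫⁻ x, ENNReal.ofReal (K ^ p * p ^ p) *
        (ENNReal.ofReal (Real.exp (g x)) * b + ENNReal.ofReal (Real.exp (-g x)) * a) ∂(gk k) := by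
        refine lintegral_congr fun x => ?_
        rw [lintegral_const_mul' _ _ ENNReal.ofReal_ne_top,
          lintegral_add_left (hm2.const_mul _), lintegral_const_mul _ hm2,
          lintegral_const_mul _ hm1]
    _ = ENNReal.ofReal (K ^ p * p ^ p) * (a * b + b * a) := by
        rw [lintegral_const_mul' _ _ ENNReal.ofReal_ne_top,
          lintegral_add_left (hm1.mul_const _), lintegral_mul_const _ hm1,
          lintegral_mul_const _ hm2]
    _ ≤ ENNReal.ofReal (K ^ p * p ^ p) *
        (ENNReal.ofReal (Real.exp 1) + ENNReal.ofReal (Real.exp 1)) := by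
        gcongr
        rw [mul_comm]
        exact hm
    _ = ENNReal.ofReal (2 * Real.exp 1 * p ^ p * K ^ p) := by
        rw [← ENNReal.ofReal_add (Real.exp_pos _).le (Real.exp_pos _).le,
          ← ENNReal.ofReal_mul (by positivity)]
        congr 1
        ring

end P249
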