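import Vale.Agent.P249.Defs
import Vale.Agent.P226.CapI

/-!
# P249 : Euclidean space inside `L_p` of a Gaussian measure
-/

namespace P249

open MeasureTheory ProbabilityTheory
open scoped RealInnerProductSpace ENNReal

/-- Euclidean space -/
abbrev EE (k : ℕ) := EuclideanSpace ℝ (Fin k)

theorem memLp_inner (p : ℝ) {k : ℕ} (x : EE k) :
    MemLp (fun ω : EE k => ⟪ω, x⟫) (ENNReal.ofReal p) (stdGaussian (EE k)) := by
  have h := IsGaussian.memLp_dual (stdGaussian (EE k)) (innerSL ℝ x) (ENNReal.ofReal p)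
    ENNReal.ofReal_ne_top
  have h2 : (fun ω : EE k => ⟪ω, x⟫) = innerSL ℝ x := by
    ext ω
    rw [innerSL_apply_apply, real_inner_comm]
  rw [h2]
  exact h

/-- the linear functional `⟨·, x⟩` as an element of `L_p` -/
noncomputable def Psi (p : ℝ) {k : ℕ} (x : EE k) :
    Lp ℝ (ENNReal.ofReal p) (stdGaussian (EE k)) :=
  (memLp_inner p x).toLp _

theorem norm_Psi {p : ℝ} (hp : 1 ≤ p) : ∃ c : ℝ, 0 < c ∧ ∀ (k : ℕ) (x y : EE k),
    ‖Psi p x - Psi p y‖ = c * ‖x - y‖ := by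
  have hp0 : 0 < p := by linarith
  have hpne : ENNReal.ofReal p ≠ 0 := (ENNReal.ofReal_pos.2 hp0).ne'
  have hid : MemLp (id : ℝ → ℝ) (ENNReal.ofReal p) (gaussianReal 0 1) :=
    memLp_id_gaussianReal p.toNNReal
  have hne : eLpNorm (id : ℝ → ℝ) (ENNReal.ofReal p) (gaussianReal 0 1) ≠ 0 := by
    intro h
    rw [eLpNorm_eq_zero_iff hid.1 hpne] at h
    have h1 : (gaussianReal 0 1) {x : ℝ | ¬ (id x = (0 : ℝ → ℝ) x)} = 0 := h
    have h2 : {x : ℝ | ¬ (id x = (0 : ℝ → ℝ) x)} = {0}ᶜ := by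
      ext x
      simp
    have h3 : NullSingletonClass (gaussianReal 0 1) :=
      nullSingletonClass_gaussianReal one_ne_zero
    rw [h2, prob_compl_eq_zero_iff (measurableSet_singleton 0), measure_singleton] at h1
    exact zero_ne_one h1
  refine ⟨(eLpNorm (id : ℝ → ℝ) (ENNReal.ofReal p) (gaussianReal 0 1)).toReal,
    ENNReal.toReal_pos hne hid.2.ne, fun k x y => ?_⟩
  have h1 : Psi p x - Psi p y = ((memLp_inner p x).sub (memLp_inner p y)).toLp _ :=
    (MemLp.toLp_sub _ _).symm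
  rw [h1, Lp.norm_toLp]
  by_cases hxy : x = y
  · subst hxy
    simp
  have hn : 0 < ‖x - y‖ := norm_pos_iff.2 (sub_ne_zero.2 hxy)
  set u : EE k := ‖x - y‖⁻¹ • (x - y) with hu
  have hu1 : ‖u‖ = 1 := by
    rw [hu, norm_smul, norm_inv, norm_norm, inv_mul_cancel₀ hn.ne']
  have h2 : ((fun ω : EE k => ⟪ω, x⟫) - fun ω : EE k => ⟪ω, y⟫) =
      ‖x - y‖ • fun ω : EE k => ⟪ω, u⟫ := by
    ext ω
    simp only [Pi.sub_apply, Pi.smul_apply, smul_eq_mul]
    rw [hu, real_inner_smul_right, ← inner_sub_right]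
    field_simp
  rw [h2, eLpNorm_const_smul, ENNReal.toReal_mul, toReal_enorm, norm_norm, mul_comm]
  congr 2
  have h3 := eLpNorm_map_measure (μ := stdGaussian (EE k)) (f := fun ω : EE k => ⟪ω, u⟫)
    (g := (id : ℝ → ℝ)) (p := ENNReal.ofReal p) (by fun_prop) (by fun_prop)
  rw [P226.map_inner_unit hu1] at h3
  rw [h3]
  rfl

end P249
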