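import Vale.Agent.P249.Clip
import Vale.Agent.P249.LpEmbed

/-!
# P249 : the lower bound `d_p(n, D) ≥ c (log n / log log n)^{p/2}` for `p > 2`
-/

namespace P249

open MeasureTheory ProbabilityTheory
open scoped ENNReal NNReal

theorem abs_le_ellNorm {p : ℝ} (hp : 0 < p) {d : ℕ} (y : Fin d → ℝ) (i : Fin d) :
    |y i| ≤ ellNorm p y := by
  have h1 : |y i| ^ p ≤ ∑ k, |y k| ^ p :=
    Finset.single_le_sum (f := fun k => |y k| ^ p) (fun k _ => Real.rpow_nonneg (abs_nonneg _) _)
      (Finset.mem_univ i)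
  calc |y i| = (|y i| ^ p) ^ (1 / p) := by
        rw [← Real.rpow_mul (abs_nonneg _), mul_one_div_cancel hp.ne', Real.rpow_one]
    _ ≤ ellNorm p y := Real.rpow_le_rpow (Real.rpow_nonneg (abs_nonneg _) _) h1 (by positivity)

theorem ellNorm_rpow {p : ℝ} (hp : 0 < p) {d : ℕ} (y : Fin d → ℝ) :
    ellNorm p y ^ p = ∑ k, |y k| ^ p := by
  rw [ellNorm, ← Real.rpow_mul (Finset.sum_nonneg fun k _ => Real.rpow_nonneg (abs_nonneg _) _),
    one_div_mul_cancel hp.ne', Real.rpow_one]

theorem ellNorm_nonneg {p : ℝ} {d : ℕ} (y : Fin d → ℝ) : 0 ≤ ellNorm p y :=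
  Real.rpow_nonneg (Finset.sum_nonneg fun _ _ => Real.rpow_nonneg (abs_nonneg _) _) _

theorem ofReal_form {d : ℕ} {P Q T : ℝ} (hP : 0 ≤ P) (hQ : 0 ≤ Q) (hT : 0 ≤ T) (u : Fin d → ℝ)
    (hu : ∀ i, 0 ≤ u i) :
    ENNReal.ofReal (P * (∑ i, P * (u i + Q) + T)) =
      ENNReal.ofReal P * (∑ i, ENNReal.ofReal P * (ENNReal.ofReal (u i) + ENNReal.ofReal Q) +
        ENNReal.ofReal T) := by
  have h0 : ∀ i, 0 ≤ P * (u i + Q) := fun i => mul_nonneg hP (add_nonneg (hu i) hQ)
  rw [ENNReal.ofReal_mul hP, ENNReal.ofReal_add (Finset.sum_nonneg fun i _ => h0 i) hT,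
    ENNReal.ofReal_sum_of_nonneg (fun i _ => h0 i)]
  congr 3
  ext i
  rw [ENNReal.ofReal_mul hP, ENNReal.ofReal_add (hu i) hQ]

theorem add_rpow_le {p a b : ℝ} (hp : 0 ≤ p) (ha : 0 ≤ a) (hb : 0 ≤ b) :
    (a + b) ^ p ≤ 2 ^ p * (a ^ p + b ^ p) := by
  have h1 : a + b ≤ 2 * max a b := by
    have := le_max_left a b
    have := le_max_right a b
    linarith
  calc (a + b) ^ p ≤ (2 * max a b) ^ p := Real.rpow_le_rpow (by positivity) h1 hp
    _ = 2 ^ p * (max a b) ^ p := Real.mul_rpow (by norm_num) (le_max_of_le_left ha)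
    _ ≤ 2 ^ p * (a ^ p + b ^ p) := by
      refine mul_le_mul_of_nonneg_left ?_ (by positivity)
      rcases max_choice a b with h | h <;> rw [h]
      · have : 0 ≤ b ^ p := by positivity
        linarith
      · have : 0 ≤ a ^ p := by positivity
        linarith

theorem norm_toLp_sub {k : ℕ} (x y : Fin k → ℝ) :
    ‖(WithLp.toLp 2 x : EE k) - WithLp.toLp 2 y‖ = √(sq (x - y)) := by
  rw [EuclideanSpace.norm_eq, sq]
  congr 1
  refine Finset.sum_congr rfl fun i _ => ?_
  rw [Real.norm_eq_abs, sq_abs]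
  rfl

/-- the grid points -/
noncomputable def pt {k : ℕ} (m : ℕ) (i : Fin k → Fin (m + 1)) : EE k :=
  WithLp.toLp 2 fun j => -1 + 2 * (i j : ℝ) / m

/-- the index of the grid point next to the clipped vector -/
noncomputable def idx {k : ℕ} (m : ℕ) (x : Fin k → ℝ) : Fin k → Fin (m + 1) := fun j =>
  ⟨min m ⌊(m : ℝ) * (clip (x j) + 1) / 2⌋₊, by omega⟩

theorem pt_idx {k m : ℕ} (hm : 1 ≤ m) (hmk : (k : ℝ) ≤ (m : ℝ) ^ 2) (x : Fin k → ℝ) :
    ‖pt m (idx m x) - (WithLp.toLp 2 (clipv x) : EE k)‖ ≤ 2 := by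
  have hm0 : (0 : ℝ) < m := by exact_mod_cast hm
  rw [pt, norm_toLp_sub]
  have h1 : ∀ j, (((fun j => -1 + 2 * ((idx m x j : Fin (m + 1)) : ℝ) / m) - clipv x) j) ^ 2 ≤
      4 / (m : ℝ) ^ 2 := by
    intro j
    simp only [Pi.sub_apply, clipv]
    set t := clip (x j) with ht
    have ht1 : -1 ≤ t := clip_ge _
    have ht2 : t ≤ 1 := clip_le _
    have hnn : 0 ≤ (m : ℝ) * (t + 1) / 2 := by
      have : 0 ≤ t + 1 := by linarith
      positivity
    have hval : ((idx m x j : Fin (m + 1)) : ℕ) = ⌊(m : ℝ) * (t + 1) / 2⌋₊ := by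
      have h2 : ⌊(m : ℝ) * (t + 1) / 2⌋₊ ≤ m := by
        refine Nat.floor_le_of_le ?_
        nlinarith
      show min m ⌊(m : ℝ) * (clip (x j) + 1) / 2⌋₊ = _
      rw [← ht]
      omega
    have hval' : ((idx m x j : Fin (m + 1)) : ℝ) = ((⌊(m : ℝ) * (t + 1) / 2⌋₊ : ℕ) : ℝ) := by
      exact_mod_cast hval
    rw [hval']
    set q : ℝ := ((⌊(m : ℝ) * (t + 1) / 2⌋₊ : ℕ) : ℝ) with hq
    have hq1 : q ≤ (m : ℝ) * (t + 1) / 2 := Nat.floor_le hnn
    have hq2 : (m : ℝ) * (t + 1) / 2 < q + 1 := Nat.lt_floor_add_one _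
    have h3 : -1 + 2 * q / m - t = (2 / m) * (q - (m : ℝ) * (t + 1) / 2) := by
      field_simp
      ring
    rw [h3, mul_pow, div_pow]
    have h4 : (q - (m : ℝ) * (t + 1) / 2) ^ 2 ≤ 1 := by nlinarith
    calc (2 : ℝ) ^ 2 / (m : ℝ) ^ 2 * (q - (m : ℝ) * (t + 1) / 2) ^ 2
        ≤ (2 : ℝ) ^ 2 / (m : ℝ) ^ 2 * 1 := by gcongr
      _ = 4 / (m : ℝ) ^ 2 := by norm_num
  have h2 : sq ((fun j => -1 + 2 * ((idx m x j : Fin (m + 1)) : ℝ) / m) - clipv x) ≤ 4 := by
    calc sq ((fun j => -1 + 2 * ((idx m x j : Fin (m + 1)) : ℝ) / m) - clipv x)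
        ≤ ∑ _j : Fin k, 4 / (m : ℝ) ^ 2 := Finset.sum_le_sum fun j _ => h1 j
      _ = k * (4 / (m : ℝ) ^ 2) := by simp
      _ ≤ 4 := by
        rw [mul_div_assoc', div_le_iff₀ (by positivity)]
        linarith
  calc √(sq ((fun j => -1 + 2 * ((idx m x j : Fin (m + 1)) : ℝ) / m) - clipv x)) ≤ √4 :=
        Real.sqrt_le_sqrt h2
    _ = 2 := by
        rw [show (4 : ℝ) = 2 ^ 2 by norm_num, Real.sqrt_sq (by norm_num)]

theorem lower_core {p D : ℝ} (hp : 2 < p) (hD : 1 ≤ D) :
    ∃ c : ℝ, 0 < c ∧ ∀ k n d : ℕ, 1 ≤ k → (⌈√(k : ℝ)⌉₊ + 1) ^ k ≤ n →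
      Suffices.{0} p D n d → c * (k : ℝ) ^ (p / 2) ≤ d := by
  classical
  have hp0 : 0 < p := by linarith
  have hFact : Fact (1 ≤ ENNReal.ofReal p) := ⟨by
    rw [← ENNReal.ofReal_one]
    exact ENNReal.ofReal_le_ofReal (by linarith)⟩
  obtain ⟨c0, hc0, hPsi⟩ := norm_Psi (p := p) (by linarith)
  have hv : 0 < VV.toReal := ENNReal.toReal_pos VV_ne_zero VV_ne_top
  set v := VV.toReal with hvdef
  -- the constant
  set C : ℝ := 2 ^ p * (2 ^ p * (2 * Real.exp 1 * p ^ p + 4 ^ p) * D ^ p + 4 ^ p) with hC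
  have hDp : 0 < D ^ p := Real.rpow_pos_of_pos (by linarith) _
  have hC0 : 0 < C := by positivity
  refine ⟨v ^ (p / 2) / C, by positivity, fun k n d hk hkn hs => ?_⟩
  have hk0 : (0 : ℝ) < k := by exact_mod_cast hk
  set m := ⌈√(k : ℝ)⌉₊ with hm
  have hm1 : 1 ≤ m := Nat.ceil_pos.2 (Real.sqrt_pos.2 hk0)
  have hmk : (k : ℝ) ≤ (m : ℝ) ^ 2 := by
    have h1 : √(k : ℝ) ≤ m := Nat.le_ceil _
    calc (k : ℝ) = √(k : ℝ) ^ 2 := (Real.sq_sqrt hk0.le).symm
      _ ≤ (m : ℝ) ^ 2 := by gcongr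
  -- the point set
  set X0 : Finset (Lp ℝ (ENNReal.ofReal p) (stdGaussian (EE k))) :=
    Finset.univ.image fun i : Fin k → Fin (m + 1) => Psi p (pt m i) with hX0
  have hX0c : X0.card ≤ n := by
    refine Finset.card_image_le.trans ?_
    rw [Finset.card_univ, Fintype.card_fun, Fintype.card_fin, Fintype.card_fin]
    exact hkn
  have hinf : Infinite (Lp ℝ (ENNReal.ofReal p) (stdGaussian (EE k))) := by
    refine Infinite.of_injective (fun r : ℝ => Psi p (EuclideanSpace.single (⟨0, hk⟩ : Fin k) r))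
      fun r r' h => ?_
    have h1 := hPsi k (EuclideanSpace.single (⟨0, hk⟩ : Fin k) r)
      (EuclideanSpace.single (⟨0, hk⟩ : Fin k) r')
    simp only at h
    rw [h, sub_self, norm_zero] at h1
    have h2 : ‖EuclideanSpace.single (⟨0, hk⟩ : Fin k) r -
        EuclideanSpace.single (⟨0, hk⟩ : Fin k) r'‖ = 0 := by
      rcases mul_eq_zero.1 h1.symm with h3 | h3
      · exact absurd h3 hc0.ne'
      · exact h3
    have h4 := sub_eq_zero.1 (norm_eq_zero.1 h2)
    have h5 := congrArg (fun w : EE k => w ⟨0, hk⟩) h4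
    simpa using h5
  obtain ⟨X, hXX, hXc⟩ := Infinite.exists_superset_card_eq X0 n hX0c
  obtain ⟨f, s, hs0, hf⟩ := hs (EE k) (stdGaussian (EE k)) X hXc
  have hmem : ∀ i, Psi p (pt m i) ∈ X := fun i =>
    hXX (Finset.mem_image.2 ⟨i, Finset.mem_univ i, rfl⟩)
  set K : ℝ := D * s * c0 with hK
  have hK0 : 0 < K := by
    have : 0 < D := by linarith
    positivity
  -- extension of the coordinates
  have hlip : ∀ i : Fin d, LipschitzOnWith K.toNNReal (fun x : EE k => f (Psi p x) i)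
      (Set.range (pt m : (Fin k → Fin (m + 1)) → EE k)) := by
    intro i
    refine LipschitzOnWith.of_dist_le_mul ?_
    rintro _ ⟨a, rfl⟩ _ ⟨b, rfl⟩
    rw [Real.dist_eq, Real.coe_toNNReal _ hK0.le, dist_eq_norm]
    have h1 := (hf _ (hmem a) _ (hmem b)).2
    have h2 := abs_le_ellNorm hp0 (f (Psi p (pt m a)) - f (Psi p (pt m b))) i
    rw [hPsi] at h1
    calc |f (Psi p (pt m a)) i - f (Psi p (pt m b)) i| ≤ _ := h2
      _ ≤ _ := h1
      _ = K * ‖pt m a - pt m b‖ := by
        rw [hK]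
        ring
  choose F hFlip hFeq using fun i => (hlip i).extend_real
  have hFlip' : ∀ i (x y : EE k), |F i x - F i y| ≤ K * ‖x - y‖ := by
    intro i x y
    have := (hFlip i).dist_le_mul x y
    rwa [Real.dist_eq, Real.coe_toNNReal _ hK0.le, dist_eq_norm] at this
  have hFeq' : ∀ i a, F i (pt m a) = f (Psi p (pt m a)) i := fun i a =>
    ((hFeq i) (Set.mem_range_self a)).symm
  set G : Fin d → (Fin k → ℝ) → ℝ := fun i x => F i (WithLp.toLp 2 (clipv x)) with hG
  have hGm : ∀ i, Measurable (G i) := by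
    intro i
    have h1 : Measurable (F i) := (hFlip i).continuous.measurable
    exact h1.comp ((WithLp.measurable_toLp 2 _).comp measurable_clipv)
  have hGL : ∀ i x y, G i x - G i y ≤ K * √(sq (x - y)) := by
    intro i x y
    refine (le_abs_self _).trans ((hFlip' i _ _).trans ?_)
    rw [norm_toLp_sub]
    exact mul_le_mul_of_nonneg_left (Real.sqrt_le_sqrt (sq_clipv_le x y)) hK0.le
  -- pointwise inequality
  have hpoint : ∀ x y : Fin k → ℝ, (s * c0) ^ p * √(sq (clipv x - clipv y)) ^ p ≤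
      2 ^ p * (∑ i, 2 ^ p * (|G i x - G i y| ^ p + (4 * K) ^ p) + (4 * (s * c0)) ^ p) := by
    intro x y
    set px := pt m (idx m x) with hpx
    set py := pt m (idx m y) with hpy
    have hx := pt_idx hm1 hmk x
    have hy := pt_idx hm1 hmk y
    rw [← hpx] at hx
    rw [← hpy] at hy
    have h1 : √(sq (clipv x - clipv y)) ≤ ‖px - py‖ + 4 := by
      rw [← norm_toLp_sub]
      have e1 : (WithLp.toLp 2 (clipv x) : EE k) - WithLp.toLp 2 (clipv y) =
          (px - py) - (px - WithLp.toLp 2 (clipv x)) + (py - WithLp.toLp 2 (clipv y)) := by abel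
      rw [e1]
      have h2 := norm_add_le ((px - py) - (px - WithLp.toLp 2 (clipv x)))
        (py - (WithLp.toLp 2 (clipv y) : EE k))
      have h3 := norm_sub_le (px - py) (px - (WithLp.toLp 2 (clipv x) : EE k))
      linarith
    have h2 : s * c0 * ‖px - py‖ ≤ ellNorm p (f (Psi p px) - f (Psi p py)) := by
      have := (hf _ (hmem (idx m x)) _ (hmem (idx m y))).1
      rw [hPsi] at this
      linarith
    have h3 : s * c0 * √(sq (clipv x - clipv y)) ≤
        ellNorm p (f (Psi p px) - f (Psi p py)) + 4 * (s * c0) := by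
      have hsc : 0 < s * c0 := by positivity
      nlinarith
    have hsc0 : 0 ≤ s * c0 := by positivity
    rw [← Real.mul_rpow hsc0 (Real.sqrt_nonneg _)]
    refine (Real.rpow_le_rpow (by positivity) h3 hp0.le).trans ?_
    refine (add_rpow_le hp0.le (ellNorm_nonneg _) (by positivity)).trans ?_
    refine mul_le_mul_of_nonneg_left ?_ (by positivity)
    refine add_le_add ?_ le_rfl
    rw [ellNorm_rpow hp0]
    refine Finset.sum_le_sum fun i _ => ?_
    refine le_trans ?_ (add_rpow_le hp0.le (abs_nonneg _) (by positivity))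
    refine Real.rpow_le_rpow (abs_nonneg _) ?_ hp0.le
    have e2 : (f (Psi p px) - f (Psi p py)) i = F i px - F i py := by
      rw [Pi.sub_apply, hpx, hpy, hFeq', hFeq']
    rw [e2]
    have k1 := hFlip' i px (WithLp.toLp 2 (clipv x))
    have k2 := hFlip' i py (WithLp.toLp 2 (clipv y))
    have k3 : |F i px - F i (WithLp.toLp 2 (clipv x))| ≤ K * 2 :=
      k1.trans (mul_le_mul_of_nonneg_left hx hK0.le)
    have k4 : |F i py - F i (WithLp.toLp 2 (clipv y))| ≤ K * 2 :=
      k2.trans (mul_le_mul_of_nonneg_left hy hK0.le)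
    have k5 : G i x - G i y = F i (WithLp.toLp 2 (clipv x)) - F i (WithLp.toLp 2 (clipv y)) := rfl
    rw [k5]
    have e3 : F i px - F i py = (F i (WithLp.toLp 2 (clipv x)) - F i (WithLp.toLp 2 (clipv y))) +
        (F i px - F i (WithLp.toLp 2 (clipv x))) - (F i py - F i (WithLp.toLp 2 (clipv y))) := by
      ring
    rw [e3]
    have k6 := abs_sub (F i (WithLp.toLp 2 (clipv x)) - F i (WithLp.toLp 2 (clipv y)) +
      (F i px - F i (WithLp.toLp 2 (clipv x)))) (F i py - F i (WithLp.toLp 2 (clipv y)))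
    have k7 := abs_add_le (F i (WithLp.toLp 2 (clipv x)) - F i (WithLp.toLp 2 (clipv y)))
      (F i px - F i (WithLp.toLp 2 (clipv x)))
    linarith
  -- integration
  have hint : ENNReal.ofReal ((s * c0) ^ p * (k * v) ^ (p / 2)) ≤
      ENNReal.ofReal (2 ^ p * (∑ _i : Fin d, 2 ^ p * (2 * Real.exp 1 * p ^ p * K ^ p +
        (4 * K) ^ p) + (4 * (s * c0)) ^ p)) := by
    have hsc0 : 0 ≤ (s * c0) ^ p := by positivity
    have hmeas : ∀ i, Measurable fun q : (Fin k → ℝ) × (Fin k → ℝ) =>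
        ENNReal.ofReal (|G i q.1 - G i q.2| ^ p) := fun i =>
      (((((hGm i).comp measurable_fst).sub ((hGm i).comp measurable_snd)).abs).pow_const
        p).ennreal_ofReal
    calc ENNReal.ofReal ((s * c0) ^ p * (k * v) ^ (p / 2))
        ≤ ENNReal.ofReal ((s * c0) ^ p) *
          ∫⁻ x, ∫⁻ y, ENNReal.ofReal (√(sq (clipv x - clipv y)) ^ p) ∂(gk k) ∂(gk k) := by
          rw [ENNReal.ofReal_mul hsc0]
          gcongr
          exact moment_ge hk hp
      _ = ∫⁻ x, ∫⁻ y, ENNReal.ofReal ((s * c0) ^ p * √(sq (clipv x - clipv y)) ^ p)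
            ∂(gk k) ∂(gk k) := by
          rw [← lintegral_const_mul' _ _ ENNReal.ofReal_ne_top]
          refine lintegral_congr fun x => ?_
          rw [← lintegral_const_mul' _ _ ENNReal.ofReal_ne_top]
          refine lintegral_congr fun y => ?_
          rw [ENNReal.ofReal_mul hsc0]
      _ ≤ ∫⁻ x, ∫⁻ y, (ENNReal.ofReal (2 ^ p) * (∑ i, ENNReal.ofReal (2 ^ p) *
            (ENNReal.ofReal (|G i x - G i y| ^ p) + ENNReal.ofReal ((4 * K) ^ p)) +
            ENNReal.ofReal ((4 * (s * c0)) ^ p))) ∂(gk k) ∂(gk k) := by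
          refine lintegral_mono fun x => lintegral_mono fun y => ?_
          exact (ENNReal.ofReal_le_ofReal (hpoint x y)).trans (le_of_eq
            (ofReal_form (by positivity) (by positivity) (by positivity)
              (fun i => |G i x - G i y| ^ p) fun i => by positivity))
      _ = ENNReal.ofReal (2 ^ p) * (∑ i, ENNReal.ofReal (2 ^ p) *
            ((∫⁻ x, ∫⁻ y, ENNReal.ofReal (|G i x - G i y| ^ p) ∂(gk k) ∂(gk k)) +
              ENNReal.ofReal ((4 * K) ^ p)) + ENNReal.ofReal ((4 * (s * c0)) ^ p)) := by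
          have i1 : ∀ x : Fin k → ℝ, ∫⁻ y, (ENNReal.ofReal (2 ^ p) * (∑ i, ENNReal.ofReal (2 ^ p) *
            (ENNReal.ofReal (|G i x - G i y| ^ p) + ENNReal.ofReal ((4 * K) ^ p)) +
            ENNReal.ofReal ((4 * (s * c0)) ^ p))) ∂(gk k) =
            ENNReal.ofReal (2 ^ p) * (∑ i, ENNReal.ofReal (2 ^ p) *
            ((∫⁻ y, ENNReal.ofReal (|G i x - G i y| ^ p) ∂(gk k)) +
              ENNReal.ofReal ((4 * K) ^ p)) + ENNReal.ofReal ((4 * (s * c0)) ^ p)) := by
            intro x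
            rw [lintegral_const_mul' _ _ ENNReal.ofReal_ne_top,
              lintegral_add_right _ measurable_const, lintegral_finsetSum]
            · simp only [lintegral_const, measure_univ, mul_one]
              congr 3
              ext i
              rw [lintegral_const_mul' _ _ ENNReal.ofReal_ne_top,
                lintegral_add_right _ measurable_const]
              simp
            · intro i _
              exact (((hmeas i).comp measurable_prodMk_left).add_const _).const_mul _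
          simp_rw [i1]
          have hmi : ∀ i, Measurable fun x : Fin k → ℝ =>
              ∫⁻ y, ENNReal.ofReal (|G i x - G i y| ^ p) ∂(gk k) := fun i =>
            (hmeas i).lintegral_prod_right'
          rw [lintegral_const_mul' _ _ ENNReal.ofReal_ne_top,
            lintegral_add_right _ measurable_const, lintegral_finsetSum]
          · simp only [lintegral_const, measure_univ, mul_one]
            congr 3
            ext i
            rw [lintegral_const_mul' _ _ ENNReal.ofReal_ne_top,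
              lintegral_add_right _ measurable_const]
            simp
          · intro i _
            exact ((hmi i).add_const _).const_mul _
      _ ≤ ENNReal.ofReal (2 ^ p) * (∑ _i : Fin d, ENNReal.ofReal (2 ^ p) *
            (ENNReal.ofReal (2 * Real.exp 1 * p ^ p * K ^ p) +
              ENNReal.ofReal ((4 * K) ^ p)) + ENNReal.ofReal ((4 * (s * c0)) ^ p)) := by
          gcongr with i _
          exact moment hp0 (G i) (hGm i) hK0 (hGL i)
      _ = _ := (ofReal_form (by positivity) (by positivity) (by positivity)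
            (fun _ : Fin d => 2 * Real.exp 1 * p ^ p * K ^ p) fun i => by positivity).symm
  rw [ENNReal.ofReal_le_ofReal_iff (by positivity)] at hint
  -- the case d = 0
  have hd : 1 ≤ d := by
    by_contra hd
    have hd0 : d = 0 := by omega
    subst hd0
    have hk' : 0 < k := hk
    set a : Fin k → Fin (m + 1) := fun _ => 0 with ha
    set b : Fin k → Fin (m + 1) := fun _ => ⟨m, by omega⟩ with hb
    have h1 := (hf _ (hmem a) _ (hmem b)).1
    have h2 : ellNorm p (f (Psi p (pt m a)) - f (Psi p (pt m b))) = 0 := by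
      rw [ellNorm]
      simp [Real.zero_rpow (inv_ne_zero hp0.ne')]
    rw [h2, hPsi] at h1
    have h3 : 0 < ‖pt m a - pt m b‖ := by
      rw [norm_pos_iff, sub_ne_zero]
      intro h
      have h4 := congrArg (fun w : EE k => w ⟨0, hk'⟩) h
      have hm0 : (m : ℝ) ≠ 0 := by positivity
      have h5 : (-1 : ℝ) + 2 * ((0 : ℕ) : ℝ) / m = -1 + 2 * (m : ℝ) / m := h4
      rw [mul_div_assoc 2 (m : ℝ), div_self hm0] at h5
      norm_num at h5
    have : 0 < s * (c0 * ‖pt m a - pt m b‖) := by positivity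
    linarith
  have hd1 : (1 : ℝ) ≤ d := by exact_mod_cast hd
  -- conclusion
  have hsc : 0 < (s * c0) ^ p := by positivity
  have hKp : K ^ p = D ^ p * (s * c0) ^ p := by
    rw [hK, mul_assoc, Real.mul_rpow (by linarith) (by positivity)]
  have h4K : (4 * K) ^ p = 4 ^ p * (D ^ p * (s * c0) ^ p) := by
    rw [Real.mul_rpow (by norm_num) hK0.le, hKp]
  have h4s : (4 * (s * c0)) ^ p = 4 ^ p * (s * c0) ^ p := by
    rw [Real.mul_rpow (by norm_num) (by positivity)]
  rw [Finset.sum_const, Finset.card_univ, Fintype.card_fin, nsmul_eq_mul, hKp, h4K, h4s] at hint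
  have hfin : (k * v) ^ (p / 2) ≤ C * d := by
    have h1 : (s * c0) ^ p * (k * v) ^ (p / 2) ≤ (s * c0) ^ p * (C * d) := by
      refine hint.trans ?_
      rw [hC]
      have h2 : (4 : ℝ) ^ p ≤ 4 ^ p * d := le_mul_of_one_le_right (by positivity) hd1
      have h3 : 2 ^ p * (d * (2 ^ p * (2 * Real.exp 1 * p ^ p * (D ^ p * (s * c0) ^ p) +
          4 ^ p * (D ^ p * (s * c0) ^ p))) + 4 ^ p * (s * c0) ^ p) =
          (s * c0) ^ p * (2 ^ p * (d * (2 ^ p * (2 * Real.exp 1 * p ^ p + 4 ^ p) * D ^ p) +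
            4 ^ p)) := by ring
      rw [h3]
      refine mul_le_mul_of_nonneg_left ?_ hsc.le
      set q : ℝ := 2 ^ p * (2 * Real.exp 1 * p ^ p + 4 ^ p) * D ^ p with hq
      have h5 : d * q + 4 ^ p ≤ (q + 4 ^ p) * d := by nlinarith
      calc 2 ^ p * (d * q + 4 ^ p) ≤ 2 ^ p * ((q + 4 ^ p) * d) :=
            mul_le_mul_of_nonneg_left h5 (by positivity)
        _ = 2 ^ p * (q + 4 ^ p) * d := by ring
    exact le_of_mul_le_mul_left h1 hsc
  rw [Real.mul_rpow hk0.le hv.le] at hfin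
  rw [div_mul_eq_mul_div, div_le_iff₀ hC0]
  linarith

end P249

namespace P249

theorem lower {p D : ℝ} (hp : 2 < p) (hD : 1 ≤ D) :
    ∃ c : ℝ, 0 < c ∧ ∀ n : ℕ, 81 ≤ n → ∀ d : ℕ, Suffices.{0} p D n d →
      c * (Real.log n / Real.log (Real.log n)) ^ (p / 2) ≤ d := by
  obtain ⟨c, hc, h⟩ := lower_core hp hD
  refine ⟨c * (1 / 2) ^ (p / 2), by positivity, fun n hn d hs => ?_⟩
  have hn0 : (0 : ℝ) < n := by positivity
  have hn81 : (81 : ℝ) ≤ n := by exact_mod_cast hn
  set l := Real.log n with hl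
  have hl4 : 4 ≤ l := by
    rw [hl, Real.le_log_iff_exp_le hn0]
    calc Real.exp 4 = Real.exp 1 ^ 4 := by
          rw [← Real.exp_nat_mul]
          norm_num
      _ ≤ 3 ^ 4 := by
          have := Real.exp_one_lt_d9
          gcongr
          linarith
      _ ≤ n := by linarith
  have hl0 : 0 < l := by linarith
  have hll : 1 ≤ Real.log l := by
    rw [Real.le_log_iff_exp_le hl0]
    have := Real.exp_one_lt_d9
    linarith
  have hll0 : 0 < Real.log l := by linarith
  have hlll : Real.log l ≤ l := by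
    have := Real.log_le_sub_one_of_pos hl0
    linarith
  have hx1 : 1 ≤ l / Real.log l := by rwa [le_div_iff₀ hll0, one_mul]
  set k := ⌊l / Real.log l⌋₊ with hk
  have hk1 : 1 ≤ k := Nat.le_floor (by simpa using hx1)
  have hk1' : (1 : ℝ) ≤ k := by exact_mod_cast hk1
  have hkle : (k : ℝ) ≤ l / Real.log l := Nat.floor_le (by linarith)
  have hkge : l / Real.log l < k + 1 := Nat.lt_floor_add_one _
  have hkhalf : 1 / 2 * (l / Real.log l) ≤ k := by linarith
  have hkl : (k : ℝ) ≤ l := hkle.trans (div_le_self hl0.le hll)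
  have hpow : (⌈√(k : ℝ)⌉₊ + 1) ^ k ≤ n := by
    have h1 : ((⌈√(k : ℝ)⌉₊ : ℕ) : ℝ) < √(k : ℝ) + 1 := Nat.ceil_lt_add_one (Real.sqrt_nonneg _)
    have h2 : √(k : ℝ) ≤ √l := Real.sqrt_le_sqrt hkl
    have h3 : √l + 2 ≤ l := by
      have h4 : √l ^ 2 = l := Real.sq_sqrt hl0.le
      have h5 : 2 ≤ √l := by
        rw [show (2 : ℝ) = √4 by rw [show (4 : ℝ) = 2 ^ 2 by norm_num, Real.sqrt_sq (by norm_num)]]
        exact Real.sqrt_le_sqrt hl4
      nlinarith
    have h6 : ((⌈√(k : ℝ)⌉₊ + 1 : ℕ) : ℝ) ≤ l := by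
      push_cast
      linarith
    have h7 : (((⌈√(k : ℝ)⌉₊ + 1) ^ k : ℕ) : ℝ) ≤ n := by
      rw [Nat.cast_pow]
      calc ((⌈√(k : ℝ)⌉₊ + 1 : ℕ) : ℝ) ^ k ≤ l ^ k := by gcongr
        _ = Real.exp (k * Real.log l) := by
          rw [Real.exp_nat_mul, Real.exp_log hl0]
        _ ≤ Real.exp l := by
          refine Real.exp_le_exp.2 ?_
          rwa [le_div_iff₀ hll0] at hkle
        _ = n := by rw [hl, Real.exp_log hn0]
    exact_mod_cast h7
  refine le_trans ?_ (h k n d hk1 hpow hs)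
  rw [mul_assoc, ← Real.mul_rpow (by norm_num) (by positivity)]
  gcongr

end P249
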