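import Mathlib

/-!
# P249 : sampling lemma (Chernoff bound)
-/

namespace P249

open MeasureTheory

theorem mgf_up {Ω : Type*} [MeasurableSpace Ω] (ν : Measure Ω) [IsProbabilityMeasure ν]
    {Z : Ω → ℝ} (hZm : Measurable Z) {M : ℝ} (hZ0 : ∀ ω, 0 ≤ Z ω)
    (hZM : ∀ ω, Z ω ≤ M) (hZ1 : ∫ ω, Z ω ∂ν = 1) {l : ℝ} (hl : |l| * M ≤ 1) :
    Integrable (fun ω => Real.exp (l * Z ω)) ν ∧
      ∫ ω, Real.exp (l * Z ω) ∂ν ≤ Real.exp (l + l ^ 2 * M) := by
  have hlZ : ∀ ω, |l * Z ω| ≤ 1 := fun ω => by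
    rw [abs_mul, abs_of_nonneg (hZ0 ω)]
    exact (mul_le_mul_of_nonneg_left (hZM ω) (abs_nonneg l)).trans hl
  have hint : Integrable (fun ω => Real.exp (l * Z ω)) ν := by
    refine Integrable.of_bound (Real.measurable_exp.comp (hZm.const_mul l)).aestronglyMeasurable
      (Real.exp 1) (Filter.Eventually.of_forall fun ω => ?_)
    rw [Real.norm_eq_abs, Real.abs_exp]
    exact Real.exp_le_exp.2 ((le_abs_self _).trans (hlZ ω))
  have hZint : Integrable Z ν := by
    refine Integrable.of_bound hZm.aestronglyMeasurable M (Filter.Eventually.of_forall fun ω => ?_)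
    rw [Real.norm_eq_abs, abs_of_nonneg (hZ0 ω)]
    exact hZM ω
  refine ⟨hint, ?_⟩
  calc ∫ ω, Real.exp (l * Z ω) ∂ν ≤ ∫ ω, (1 + (l + l ^ 2 * M) * Z ω) ∂ν := by
        refine integral_mono hint ((integrable_const _).add (hZint.const_mul _)) fun ω => ?_
        have h1 := (abs_le.1 (Real.abs_exp_sub_one_sub_id_le (hlZ ω))).2
        have h2 : (l * Z ω) ^ 2 ≤ l ^ 2 * M * Z ω := by
          have := mul_le_mul_of_nonneg_left (hZM ω) (hZ0 ω)
          nlinarith [sq_nonneg l]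
        simp only
        nlinarith
    _ = 1 + (l + l ^ 2 * M) := by
        rw [integral_add (integrable_const _) (hZint.const_mul _), integral_const_mul, hZ1]
        simp
    _ ≤ Real.exp (l + l ^ 2 * M) := by
        have := Real.add_one_le_exp (l + l ^ 2 * M)
        linarith

theorem mgf_pow {Ω : Type*} [MeasurableSpace Ω] (ν : Measure Ω) [IsProbabilityMeasure ν]
    {Z : Ω → ℝ} (hZm : Measurable Z) {M : ℝ} (hZ0 : ∀ ω, 0 ≤ Z ω)
    (hZM : ∀ ω, Z ω ≤ M) (hZ1 : ∫ ω, Z ω ∂ν = 1) {l : ℝ} (hl : |l| * M ≤ 1) (N : ℕ) (c : ℝ) :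
    Integrable (fun w : Fin N → Ω => Real.exp (l * (∑ k, Z (w k)) + c))
      (Measure.pi fun _ => ν) ∧
    ∫ w : Fin N → Ω, Real.exp (l * (∑ k, Z (w k)) + c) ∂(Measure.pi fun _ => ν) ≤
      Real.exp (N * (l + l ^ 2 * M) + c) := by
  obtain ⟨hint, hle⟩ := mgf_up ν hZm hZ0 hZM hZ1 hl
  have heq : ∀ w : Fin N → Ω, Real.exp (l * (∑ k, Z (w k)) + c) =
      Real.exp c * ∏ k, Real.exp (l * Z (w k)) := by
    intro w
    rw [Real.exp_add, Finset.mul_sum, Real.exp_sum, mul_comm]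
  simp_rw [heq]
  constructor
  · exact (Integrable.fintype_prod fun _ => hint).const_mul _
  · rw [integral_const_mul, integral_fintype_prod_eq_pow (fun ω => Real.exp (l * Z ω)),
      Fintype.card_fin, Real.exp_add, mul_comm (Real.exp (N * (l + l ^ 2 * M)))]
    refine mul_le_mul_of_nonneg_left ?_ (Real.exp_pos _).le
    rw [Real.exp_nat_mul]
    exact pow_le_pow_left₀ (integral_nonneg fun ω => (Real.exp_pos _).le) hle N

theorem exists_sample {Ω : Type*} [MeasurableSpace Ω] (ν : Measure Ω) [IsProbabilityMeasure ν]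
    {J : Type*} [Fintype J] [Nonempty J] (Z : J → Ω → ℝ) (hZm : ∀ j, Measurable (Z j)) {M : ℝ}
    (hM : 0 < M) (hZ0 : ∀ j ω, 0 ≤ Z j ω) (hZM : ∀ j ω, Z j ω ≤ M)
    (hZ1 : ∀ j, ∫ ω, Z j ω ∂ν = 1) {ε : ℝ} (hε : 0 < ε) (hε1 : ε ≤ 1) {N : ℕ}
    (hN : 4 * M / ε ^ 2 * Real.log (2 * Fintype.card J) < N) :
    ∃ w : Fin N → Ω, ∀ j, |(∑ k, Z j (w k)) - N| ≤ ε * N := by
  set l : ℝ := ε / (2 * M) with hl
  have hl0 : 0 < l := by positivity
  have hlM : l * M = ε / 2 := by
    rw [hl]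
    field_simp
  have hlM1 : |l| * M ≤ 1 := by
    rw [abs_of_pos hl0, hlM]
    linarith
  have hlM2 : |-l| * M ≤ 1 := by rwa [abs_neg]
  set f1 : J → (Fin N → Ω) → ℝ := fun j w =>
    Real.exp (l * (∑ k, Z j (w k)) + -(l * (N * (1 + ε)))) with hf1
  set f2 : J → (Fin N → Ω) → ℝ := fun j w =>
    Real.exp (-l * (∑ k, Z j (w k)) + l * (N * (1 - ε))) with hf2
  have h1 := fun j => mgf_pow ν (hZm j) (hZ0 j) (hZM j) (hZ1 j) hlM1 N (-(l * (N * (1 + ε))))
  have h2 := fun j => mgf_pow ν (hZm j) (hZ0 j) (hZM j) (hZ1 j) hlM2 N (l * (N * (1 - ε)))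
  have hadd : ∀ j, Integrable (fun w => f1 j w + f2 j w) (Measure.pi fun _ : Fin N => ν) :=
    fun j => (h1 j).1.add (h2 j).1
  have hint : Integrable (fun w => ∑ j, (f1 j w + f2 j w)) (Measure.pi fun _ : Fin N => ν) :=
    integrable_finsetSum _ fun j _ => hadd j
  obtain ⟨w, hw⟩ := exists_le_integral hint
  have hval : ∫ w, ∑ j, (f1 j w + f2 j w) ∂(Measure.pi fun _ : Fin N => ν) < 1 := by
    rw [integral_finsetSum _ fun j _ => hadd j]
    have hb : ∀ j ∈ (Finset.univ : Finset J),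
        ∫ w, (f1 j w + f2 j w) ∂(Measure.pi fun _ : Fin N => ν) ≤
        2 * Real.exp (-(N * ε ^ 2 / (4 * M))) := by
      intro j _
      have h3 : ∫ w, (f1 j w + f2 j w) ∂(Measure.pi fun _ : Fin N => ν) =
          ∫ w, f1 j w ∂(Measure.pi fun _ : Fin N => ν) +
          ∫ w, f2 j w ∂(Measure.pi fun _ : Fin N => ν) := integral_add (h1 j).1 (h2 j).1
      rw [h3, two_mul]
      have e1 : N * (l + l ^ 2 * M) + -(l * (N * (1 + ε))) = -(N * ε ^ 2 / (4 * M)) := by
        rw [hl]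
        field_simp
        ring
      have e2 : N * (-l + (-l) ^ 2 * M) + l * (N * (1 - ε)) = -(N * ε ^ 2 / (4 * M)) := by
        rw [hl]
        field_simp
        ring
      have h4 := (h1 j).2
      have h5 := (h2 j).2
      rw [e1] at h4
      rw [e2] at h5
      exact add_le_add h4 h5
    refine (Finset.sum_le_sum hb).trans_lt ?_
    rw [Finset.sum_const, Finset.card_univ, nsmul_eq_mul]
    have hc : (0 : ℝ) < Fintype.card J := by exact_mod_cast Fintype.card_pos
    have h6 : Real.log (2 * Fintype.card J) < N * ε ^ 2 / (4 * M) := by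
      rw [lt_div_iff₀ (by positivity)]
      have h7 := mul_lt_mul_of_pos_right hN (by positivity : 0 < ε ^ 2)
      have h8 : 4 * M / ε ^ 2 * Real.log (2 * Fintype.card J) * ε ^ 2 =
        Real.log (2 * Fintype.card J) * (4 * M) := by
        field_simp
      rw [h8] at h7
      exact h7
    rw [Real.exp_neg, ← mul_assoc, ← div_eq_mul_inv, div_lt_one (Real.exp_pos _)]
    calc (Fintype.card J : ℝ) * 2 = Real.exp (Real.log (2 * Fintype.card J)) := by
          rw [Real.exp_log (by positivity)]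
          ring
      _ < Real.exp (N * ε ^ 2 / (4 * M)) := Real.exp_lt_exp.2 h6
  have hlt : ∑ j, (f1 j w + f2 j w) < 1 := hw.trans_lt hval
  refine ⟨w, fun j => ?_⟩
  have hj : f1 j w + f2 j w < 1 := by
    refine lt_of_le_of_lt ?_ hlt
    exact Finset.single_le_sum (f := fun j => f1 j w + f2 j w)
      (fun i _ => add_nonneg (Real.exp_pos _).le (Real.exp_pos _).le) (Finset.mem_univ j)
  have g1 : f1 j w < 1 := by
    have : 0 < f2 j w := Real.exp_pos _
    linarith
  have g2 : f2 j w < 1 := by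
    have : 0 < f1 j w := Real.exp_pos _
    linarith
  rw [hf1] at g1
  rw [hf2] at g2
  simp only [Real.exp_lt_one_iff] at g1 g2
  have k1 : l * ((∑ k, Z j (w k)) - N * (1 + ε)) < 0 := by linarith
  have k2 : l * (N * (1 - ε) - ∑ k, Z j (w k)) < 0 := by linarith
  have k1' := neg_of_mul_neg_right k1 hl0.le
  have k2' := neg_of_mul_neg_right k2 hl0.le
  rw [abs_le]
  constructor <;> linarith

end P249
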