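import Mathlib

/-!
# P249 : a two-hop spanner of a finite metric space (Thorup–Zwick)
-/

namespace P249

section Hit

variable {X : Type*} [Fintype X] [DecidableEq X]

/-- a hitting set that contains at most half of the ground set -/
theorem exists_hit (A : Finset X) (s : ℕ) (F : X → Finset X) (hF : ∀ u, F u ⊆ A)
    (hFs : ∀ u, s ≤ (F u).card) (hs : 2 * Fintype.card X < 2 ^ s) :
    ∃ B ⊆ A, 2 * B.card ≤ A.card ∧ ∀ u, ∃ b ∈ B, b ∈ F u := by
  classical
  set bad1 : X → Finset (Finset X) := fun u => A.powerset.filter fun B => Disjoint B (F u)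
    with hbad1
  set bad2 : X → Finset (Finset X) := fun u => A.powerset.filter fun B => F u ⊆ B with hbad2
  have h1 : ∀ u, (bad1 u).card ≤ 2 ^ (A.card - s) := by
    intro u
    have hsub : bad1 u ⊆ (A \ F u).powerset := by
      intro B hB
      rw [hbad1, Finset.mem_filter, Finset.mem_powerset] at hB
      rw [Finset.mem_powerset]
      exact Finset.subset_sdiff.2 hB
    refine (Finset.card_le_card hsub).trans ?_
    rw [Finset.card_powerset, Finset.card_sdiff_of_subset (hF u)]
    exact Nat.pow_le_pow_right (by norm_num) (Nat.sub_le_sub_left (hFs u) _)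
  have h2 : ∀ u, (bad2 u).card ≤ 2 ^ (A.card - s) := by
    intro u
    refine le_trans ?_ (h1 u)
    refine Finset.card_le_card_of_injOn (fun B => A \ B) ?_ ?_
    · intro B hB
      rw [Finset.mem_coe, hbad2, Finset.mem_filter, Finset.mem_powerset] at hB
      rw [Finset.mem_coe, hbad1, Finset.mem_filter, Finset.mem_powerset]
      refine ⟨Finset.sdiff_subset, ?_⟩
      exact Finset.disjoint_left.2 fun x hx hx' => (Finset.mem_sdiff.1 hx).2 (hB.2 hx')
    · intro B hB B' hB' hBB
      rw [Finset.mem_coe, hbad2, Finset.mem_filter, Finset.mem_powerset] at hB hB'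
      have e1 := Finset.sdiff_sdiff_eq_self hB.1
      have e2 := Finset.sdiff_sdiff_eq_self hB'.1
      simp only at hBB
      rw [← e1, hBB, e2]
  have h3 : (Finset.univ.biUnion fun u => bad1 u ∪ bad2 u).card < A.powerset.card := by
    rcases isEmpty_or_nonempty X with hX | ⟨⟨x⟩⟩
    · simp
    have hsA : s ≤ A.card := (hFs x).trans (Finset.card_le_card (hF x))
    calc (Finset.univ.biUnion fun u => bad1 u ∪ bad2 u).card
        ≤ ∑ _u : X, 2 * 2 ^ (A.card - s) := by
          refine (Finset.card_biUnion_le).trans (Finset.sum_le_sum fun u _ => ?_)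
          refine (Finset.card_union_le _ _).trans ?_
          have := h1 u
          have := h2 u
          omega
      _ = 2 * Fintype.card X * 2 ^ (A.card - s) := by
          rw [Finset.sum_const, Finset.card_univ, smul_eq_mul]
          ring
      _ < 2 ^ s * 2 ^ (A.card - s) := by
          exact Nat.mul_lt_mul_of_pos_right hs (by positivity)
      _ = A.powerset.card := by
          rw [Finset.card_powerset, ← pow_add, Nat.add_sub_cancel' hsA]
  obtain ⟨B, hB, hBn⟩ := Finset.exists_mem_notMem_of_card_lt_card h3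
  rw [Finset.mem_powerset] at hB
  have hn : ∀ u, (¬ Disjoint B (F u)) ∧ ¬ F u ⊆ B := by
    intro u
    constructor
    · intro h
      refine hBn (Finset.mem_biUnion.2 ⟨u, Finset.mem_univ u, Finset.mem_union_left _ ?_⟩)
      rw [hbad1, Finset.mem_filter, Finset.mem_powerset]
      exact ⟨hB, h⟩
    · intro h
      refine hBn (Finset.mem_biUnion.2 ⟨u, Finset.mem_univ u, Finset.mem_union_right _ ?_⟩)
      rw [hbad2, Finset.mem_filter, Finset.mem_powerset]
      exact ⟨hB, h⟩
  by_cases hc : 2 * B.card ≤ A.card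
  · refine ⟨B, hB, hc, fun u => ?_⟩
    obtain ⟨b, hb1, hb2⟩ := Finset.not_disjoint_iff.1 (hn u).1
    exact ⟨b, hb1, hb2⟩
  · refine ⟨A \ B, Finset.sdiff_subset, ?_, fun u => ?_⟩
    · rw [Finset.card_sdiff_of_subset hB]
      have := Finset.card_le_card hB
      omega
    · obtain ⟨b, hb1, hb2⟩ := Finset.not_subset.1 (hn u).2
      exact ⟨b, Finset.mem_sdiff.2 ⟨hF u hb1, hb2⟩, hb1⟩

/-- the `s` smallest elements -/
theorem exists_smallest (g : X → ℝ) (A : Finset X) (s : ℕ) (hs : s ≤ A.card) :
    ∃ F ⊆ A, F.card = s ∧ ∀ f ∈ F, ∀ a ∈ A, a ∉ F → g f ≤ g a := by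
  induction s with
  | zero => exact ⟨∅, by simp, by simp, by simp⟩
  | succ s ih =>
    obtain ⟨F, hFA, hFs, hF⟩ := ih (by omega)
    have hne : (A \ F).Nonempty := by
      rw [← Finset.card_pos, Finset.card_sdiff_of_subset hFA]
      omega
    obtain ⟨m, hm, hmin⟩ := Finset.exists_min_image (A \ F) g hne
    rw [Finset.mem_sdiff] at hm
    refine ⟨insert m F, Finset.insert_subset hm.1 hFA, ?_, ?_⟩
    · rw [Finset.card_insert_of_notMem hm.2, hFs]
    · intro f hf a ha haF
      rw [Finset.mem_insert, not_or] at haF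
      rcases Finset.mem_insert.1 hf with rfl | hf
      · exact hmin a (Finset.mem_sdiff.2 ⟨ha, haF.2⟩)
      · exact hF f hf a ha haF.2

theorem exists_tz (d : X → X → ℝ) (hsymm : ∀ x y, d x y = d y x)
    (htri : ∀ x y z, d x z ≤ d x y + d y z) (hnn : ∀ x y, 0 ≤ d x y) (s : ℕ)
    (hs : 2 * Fintype.card X < 2 ^ s) (m : ℕ) :
    ∀ (A : Finset X), A.card < 2 ^ m → ∀ P : X → X,
      (∀ u, P u ∈ A ∧ ∀ a ∈ A, d u (P u) ≤ d u a) →
      ∃ E : Finset (X × X), E.card ≤ m * (Fintype.card X * (s + 1)) ∧
        ∀ u v c, 0 ≤ c → d u (P u) ≤ c * d u v →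
          ∃ w, (u, w) ∈ E ∧ (v, w) ∈ E ∧ d u w ≤ (c + m) * d u v ∧
            d v w ≤ (c + m) * d u v := by
  induction m with
  | zero =>
    intro A hA P hP
    rw [pow_zero, Nat.lt_one_iff, Finset.card_eq_zero] at hA
    refine ⟨∅, by simp, fun u => ?_⟩
    have := (hP u).1
    rw [hA] at this
    simp at this
  | succ m ih =>
    intro A hA P hP
    set piv : Finset (X × X) := Finset.univ.image fun u => (u, P u) with hpiv
    have hpivc : piv.card ≤ Fintype.card X := Finset.card_image_le
    have hone : ∀ u v c, 0 ≤ c → d u (P u) ≤ c * d u v → d v (P u) ≤ (c + 1) * d u v := by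
      intro u v c _ h
      have := htri v u (P u)
      rw [hsymm v u] at this
      linarith
    by_cases hAs : A.card ≤ s
    · refine ⟨piv ∪ Finset.univ ×ˢ A, ?_, ?_⟩
      · refine (Finset.card_union_le _ _).trans ?_
        rw [Finset.card_product, Finset.card_univ]
        have h1 : Fintype.card X * A.card ≤ Fintype.card X * s := Nat.mul_le_mul_left _ hAs
        have h2 : Fintype.card X * (s + 1) ≤ (m + 1) * (Fintype.card X * (s + 1)) :=
          Nat.le_mul_of_pos_left _ (by omega)
        have h3 : Fintype.card X * (s + 1) = Fintype.card X * s + Fintype.card X := by ring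
        omega
      · intro u v c hc h
        have hu := hnn u v
        refine ⟨P u, ?_, ?_, ?_, ?_⟩
        · exact Finset.mem_union_left _ (Finset.mem_image.2 ⟨u, Finset.mem_univ u, rfl⟩)
        · exact Finset.mem_union_right _
            (Finset.mem_product.2 ⟨Finset.mem_univ v, (hP u).1⟩)
        · push_cast
          nlinarith [(Nat.cast_nonneg m : (0 : ℝ) ≤ m), mul_nonneg (Nat.cast_nonneg m : (0 : ℝ) ≤ m) hu]
        · have := hone u v c hc h
          push_cast
          nlinarith [mul_nonneg (Nat.cast_nonneg m : (0 : ℝ) ≤ m) hu]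
    · push Not at hAs
      choose F hFA hFs hF using fun v => exists_smallest (d v) A s hAs.le
      obtain ⟨A', hA'A, hA'c, hA'⟩ := exists_hit A s F hFA (fun v => (hFs v).ge) hs
      have hA'm : A'.card < 2 ^ m := by
        rw [pow_succ] at hA
        omega
      have hA'ne : ∀ _v : X, A'.Nonempty := fun v => by
        obtain ⟨b, hb, _⟩ := hA' v
        exact ⟨b, hb⟩
      choose P' hP'1 hP'2 using fun v : X => Finset.exists_min_image A' (d v) (hA'ne v)
      obtain ⟨E', hE'c, hE'⟩ := ih A' hA'm P' fun v => ⟨hP'1 v, hP'2 v⟩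
      set fan : Finset (X × X) := Finset.univ.biUnion fun v => (F v).image fun y => (v, y)
        with hfan
      have hfanc : fan.card ≤ Fintype.card X * s := by
        refine Finset.card_biUnion_le.trans ?_
        calc ∑ v : X, ((F v).image fun y => (v, y)).card ≤ ∑ _v : X, s :=
              Finset.sum_le_sum fun v _ => Finset.card_image_le.trans (hFs v).le
          _ = Fintype.card X * s := by
              rw [Finset.sum_const, Finset.card_univ, smul_eq_mul]
      refine ⟨(piv ∪ fan) ∪ E', ?_, ?_⟩
      · refine (Finset.card_union_le _ _).trans ?_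
        have h0 := Finset.card_union_le piv fan
        have h3 : (m + 1) * (Fintype.card X * (s + 1)) =
          m * (Fintype.card X * (s + 1)) + (Fintype.card X * s + Fintype.card X) := by ring
        omega
      · intro u v c hc h
        have hu := hnn u v
        have h1 := hone u v c hc h
        by_cases hPF : P u ∈ F v
        · refine ⟨P u, ?_, ?_, ?_, ?_⟩
          · exact Finset.mem_union_left _ (Finset.mem_union_left _
              (Finset.mem_image.2 ⟨u, Finset.mem_univ u, rfl⟩))
          · refine Finset.mem_union_left _ (Finset.mem_union_right _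
              (Finset.mem_biUnion.2 ⟨v, Finset.mem_univ v, ?_⟩))
            exact Finset.mem_image.2 ⟨P u, hPF, rfl⟩
          · push_cast
            nlinarith [mul_nonneg (Nat.cast_nonneg m : (0 : ℝ) ≤ m) hu]
          · push_cast
            nlinarith [mul_nonneg (Nat.cast_nonneg m : (0 : ℝ) ≤ m) hu]
        · obtain ⟨b, hb, hbF⟩ := hA' v
          have h2 : d v (P' v) ≤ (c + 1) * d v u := by
            rw [hsymm v u]
            exact ((hP'2 v b hb).trans (hF v b hbF (P u) (hP u).1 hPF)).trans h1
          obtain ⟨w, hw1, hw2, hw3, hw4⟩ := hE' v u (c + 1) (by linarith) h2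
          rw [hsymm v u] at hw3 hw4
          refine ⟨w, Finset.mem_union_right _ hw2, Finset.mem_union_right _ hw1, ?_, ?_⟩
          · push_cast
            linarith
          · push_cast
            linarith

/-- every finite metric space has a two-hop spanner with `O(n log² n)` edges and stretch
`O(log n)` -/
theorem exists_spanner (d : X → X → ℝ) (hself : ∀ x, d x x = 0) (hsymm : ∀ x y, d x y = d y x)
    (htri : ∀ x y z, d x z ≤ d x y + d y z) (hnn : ∀ x y, 0 ≤ d x y) :
    ∃ E : Finset (X × X),
      E.card ≤ (Nat.log 2 (Fintype.card X) + 1) *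
        (Fintype.card X * (Nat.log 2 (Fintype.card X) + 3)) ∧
      ∀ u v, ∃ w, (u, w) ∈ E ∧ (v, w) ∈ E ∧
        d u w ≤ (Nat.log 2 (Fintype.card X) + 1) * d u v ∧
        d v w ≤ (Nat.log 2 (Fintype.card X) + 1) * d u v := by
  have hlog : Fintype.card X < 2 ^ (Nat.log 2 (Fintype.card X) + 1) :=
    Nat.lt_pow_succ_log_self (by norm_num) _
  have hs : 2 * Fintype.card X < 2 ^ (Nat.log 2 (Fintype.card X) + 2) := by
    rw [pow_succ]
    omega
  obtain ⟨E, hE, hE2⟩ := exists_tz d hsymm htri hnn (Nat.log 2 (Fintype.card X) + 2) hs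
    (Nat.log 2 (Fintype.card X) + 1) Finset.univ (by rw [Finset.card_univ]; exact hlog) id
    fun u => ⟨Finset.mem_univ _, fun a _ => by rw [id, hself]; exact hnn u a⟩
  refine ⟨E, hE, fun u v => ?_⟩
  obtain ⟨w, h1, h2, h3, h4⟩ := hE2 u v 0 le_rfl (by rw [id, hself]; simp)
  refine ⟨w, h1, h2, ?_, ?_⟩
  · push_cast at h3
    rwa [zero_add] at h3
  · push_cast at h4
    rwa [zero_add] at h4

end Hit

end P249
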