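import Vale.Agent.P249.Defs
import Vale.Agent.P249.Spanner
import Vale.Agent.P249.Sample

/-!
# P249 : the upper bound `d_p(n, D) ≤ C n (log n)^{p+3}`
-/

namespace P249

open MeasureTheory

section

variable {α : Type*} [MeasurableSpace α] {μ : Measure α} {p : ℝ}

theorem norm_sub_rpow (hp : 1 ≤ p) (x y : Lp ℝ (ENNReal.ofReal p) μ) :
    Integrable (fun a => |x a - y a| ^ p) μ ∧ ∫ a, |x a - y a| ^ p ∂μ = ‖x - y‖ ^ p := by
  have hp0 : 0 < p := by linarith
  have hpr : (ENNReal.ofReal p).toReal = p := ENNReal.toReal_ofReal hp0.le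
  have hne : ENNReal.ofReal p ≠ 0 := (ENNReal.ofReal_pos.2 hp0).ne'
  have hm : MemLp (fun a => x a - y a) (ENNReal.ofReal p) μ := (Lp.memLp x).sub (Lp.memLp y)
  constructor
  · have := hm.integrable_norm_rpow hne ENNReal.ofReal_ne_top
    rw [hpr] at this
    simpa [Real.norm_eq_abs] using this
  · have h1 : ‖x - y‖ = (∫ a, |x a - y a| ^ p ∂μ) ^ (p⁻¹) := by
      rw [Lp.norm_def, eLpNorm_congr_ae (Lp.coeFn_sub x y)]
      have h2 := hm.eLpNorm_eq_integral_rpow_norm hne ENNReal.ofReal_ne_top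
      rw [hpr] at h2
      have h3 : eLpNorm (⇑x - ⇑y) (ENNReal.ofReal p) μ =
        ENNReal.ofReal ((∫ a, |x a - y a| ^ p ∂μ) ^ p⁻¹) := h2
      rw [h3, ENNReal.toReal_ofReal]
      exact Real.rpow_nonneg (integral_nonneg fun a => Real.rpow_nonneg (abs_nonneg _) _) _
    rw [h1, ← Real.rpow_mul (integral_nonneg fun a => Real.rpow_nonneg (abs_nonneg _) _),
      inv_mul_cancel₀ hp0.ne', Real.rpow_one]

/-- sampling coordinates with respect to a density that dominates all pairs -/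
theorem embed_of_density (hp : 1 ≤ p) (X : Finset (Lp ℝ (ENNReal.ofReal p) μ)) (hX : 2 ≤ X.card)
    (w : α → ℝ) (hwm : Measurable w) (hw0 : ∀ a, 0 ≤ w a) (hwi : Integrable w μ)
    {S K : ℝ} (hS : 0 < S) (hwS : ∫ a, w a ∂μ = S) (hK : 0 < K)
    (hdom : ∀ x ∈ X, ∀ y ∈ X, ∀ a, |x a - y a| ^ p ≤ K * ‖x - y‖ ^ p * w a)
    {ε : ℝ} (hε : 0 < ε) (hε1 : ε < 1) {N : ℕ}
    (hN : 4 * (S * K) / ε ^ 2 * Real.log (2 * (X.card : ℝ) ^ 2) < N) :
    ∃ f : Lp ℝ (ENNReal.ofReal p) μ → Fin N → ℝ, ∀ x ∈ X, ∀ y ∈ X,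
      (1 - ε) ^ (1 / p) * ‖x - y‖ ≤ ellNorm p (f x - f y) ∧
      ellNorm p (f x - f y) ≤ (1 + ε) ^ (1 / p) * ‖x - y‖ := by
  classical
  have hp0 : 0 < p := by linarith
  have : Fact (1 ≤ ENNReal.ofReal p) := ⟨by
    rw [← ENNReal.ofReal_one]
    exact ENNReal.ofReal_le_ofReal hp⟩
  -- the probability measure
  set ν : Measure α := μ.withDensity fun a => ENNReal.ofReal (w a / S) with hν
  have hνp : IsProbabilityMeasure ν := by
    constructor
    rw [hν, withDensity_apply _ MeasurableSet.univ, Measure.restrict_univ,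
      ← ofReal_integral_eq_lintegral_ofReal (hwi.div_const S)
        (Filter.Eventually.of_forall fun a => div_nonneg (hw0 a) hS.le),
      integral_div, hwS, div_self hS.ne', ENNReal.ofReal_one]
  -- pairs
  set J := {q : X × X // q.1.1 ≠ q.2.1} with hJ
  have hJne : Nonempty J := by
    obtain ⟨x, hx, y, hy, hxy⟩ := Finset.one_lt_card.1 (by omega : 1 < X.card)
    exact ⟨⟨(⟨x, hx⟩, ⟨y, hy⟩), hxy⟩⟩
  have hJc : (Fintype.card J : ℝ) ≤ (X.card : ℝ) ^ 2 := by
    have h1 : Fintype.card J ≤ Fintype.card (X × X) :=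
      Fintype.card_subtype_le (fun q : X × X => q.1.1 ≠ q.2.1)
    have h2 : Fintype.card (X × X) = X.card ^ 2 := by
      rw [Fintype.card_prod, Fintype.card_coe, sq]
    rw [h2] at h1
    exact_mod_cast h1
  set Z : J → α → ℝ := fun q a =>
    S * (|q.1.1.1 a - q.1.2.1 a| ^ p / ‖q.1.1.1 - q.1.2.1‖ ^ p) / w a with hZ
  have hnpos : ∀ q : J, 0 < ‖q.1.1.1 - q.1.2.1‖ ^ p := fun q =>
    Real.rpow_pos_of_pos (norm_pos_iff.2 (sub_ne_zero.2 q.2)) p
  have hZm : ∀ q, Measurable (Z q) := by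
    intro q
    have h1 : Measurable (q.1.1.1 : α → ℝ) := (Lp.stronglyMeasurable _).measurable
    have h2 : Measurable (q.1.2.1 : α → ℝ) := (Lp.stronglyMeasurable _).measurable
    exact (measurable_const.mul (((h1.sub h2).abs.pow_const p).div_const _)).div hwm
  have hZ0 : ∀ q a, 0 ≤ Z q a := fun q a => by
    have := hnpos q
    have := hw0 a
    simp only [hZ]
    positivity
  have hZM : ∀ q a, Z q a ≤ S * K := by
    intro q a
    simp only [hZ]
    rcases (hw0 a).eq_or_lt with h | h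
    · rw [← h, div_zero]
      positivity
    · rw [div_le_iff₀ h, mul_assoc]
      refine mul_le_mul_of_nonneg_left ?_ hS.le
      rw [div_le_iff₀ (hnpos q)]
      have := hdom _ q.1.1.2 _ q.1.2.2 a
      nlinarith
  have hZ1 : ∀ q, ∫ a, Z q a ∂ν = 1 := by
    intro q
    rw [hν, integral_withDensity_eq_integral_toReal_smul (by fun_prop)
      (Filter.Eventually.of_forall fun a => ENNReal.ofReal_lt_top)]
    have h1 : ∀ a, (ENNReal.ofReal (w a / S)).toReal • Z q a =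
        |q.1.1.1 a - q.1.2.1 a| ^ p / ‖q.1.1.1 - q.1.2.1‖ ^ p := by
      intro a
      rw [ENNReal.toReal_ofReal (div_nonneg (hw0 a) hS.le), smul_eq_mul]
      simp only [hZ]
      rcases (hw0 a).eq_or_lt with h | h
      · have h2 := hdom _ q.1.1.2 _ q.1.2.2 a
        rw [← h, mul_zero] at h2
        have h3 : |q.1.1.1 a - q.1.2.1 a| ^ p = 0 :=
          le_antisymm h2 (Real.rpow_nonneg (abs_nonneg _) _)
        rw [h3, ← h]
        simp
      · field_simp
    simp_rw [h1]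
    rw [integral_div, (norm_sub_rpow hp _ _).2, div_self (hnpos q).ne']
  have hN' : 4 * (S * K) / ε ^ 2 * Real.log (2 * Fintype.card J) < N := by
    refine lt_of_le_of_lt (mul_le_mul_of_nonneg_left ?_ (by positivity)) hN
    have hJpos : (0 : ℝ) < Fintype.card J := by exact_mod_cast Fintype.card_pos
    exact Real.log_le_log (by positivity) (by linarith)
  obtain ⟨om, hom⟩ := exists_sample ν Z hZm (by positivity : 0 < S * K) hZ0 hZM hZ1 hε hε1.le hN'
  have hNpos : (0 : ℝ) < N := by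
    refine lt_of_le_of_lt ?_ hN
    have h2 : (2 : ℝ) ≤ X.card := by exact_mod_cast hX
    have : 0 ≤ Real.log (2 * (X.card : ℝ) ^ 2) := Real.log_nonneg (by nlinarith)
    positivity
  set c : Fin N → ℝ := fun k => S / (N * w (om k)) with hc
  have hc0 : ∀ k, 0 ≤ c k := fun k => by
    have := hw0 (om k)
    simp only [hc]
    positivity
  refine ⟨fun x k => c k ^ (1 / p) * x (om k), fun x hx y hy => ?_⟩
  by_cases hxy : x = y
  · subst hxy
    simp [ellNorm, Real.zero_rpow hp0.ne', Real.zero_rpow (inv_ne_zero hp0.ne')]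
  have hsum : ∑ k, |((fun k => c k ^ (1 / p) * x (om k)) - fun k => c k ^ (1 / p) * y (om k)) k| ^ p
      = ‖x - y‖ ^ p / N * ∑ k, Z ⟨(⟨x, hx⟩, ⟨y, hy⟩), hxy⟩ (om k) := by
    rw [Finset.mul_sum]
    refine Finset.sum_congr rfl fun k _ => ?_
    have hnp := hnpos ⟨(⟨x, hx⟩, ⟨y, hy⟩), hxy⟩
    simp only [Pi.sub_apply, hZ] at hnp ⊢
    rw [← mul_sub, abs_mul, abs_of_nonneg (Real.rpow_nonneg (hc0 k) _),
      Real.mul_rpow (Real.rpow_nonneg (hc0 k) _) (abs_nonneg _), ← Real.rpow_mul (hc0 k),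
      one_div_mul_cancel hp0.ne', Real.rpow_one]
    simp only [hc]
    rcases (hw0 (om k)).eq_or_lt with h | h
    · rw [← h]
      simp
    · field_simp
  have hj := abs_le.1 (hom ⟨(⟨x, hx⟩, ⟨y, hy⟩), hxy⟩)
  set T := ∑ k, Z ⟨(⟨x, hx⟩, ⟨y, hy⟩), hxy⟩ (om k) with hT
  have hnp : 0 < ‖x - y‖ ^ p := hnpos ⟨(⟨x, hx⟩, ⟨y, hy⟩), hxy⟩
  have hroot : ∀ c : ℝ, 0 ≤ c → (c * ‖x - y‖ ^ p) ^ (1 / p) = c ^ (1 / p) * ‖x - y‖ := by
    intro c hc
    rw [Real.mul_rpow hc (Real.rpow_nonneg (norm_nonneg _) _), ← Real.rpow_mul (norm_nonneg _),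
      mul_one_div_cancel hp0.ne', Real.rpow_one]
  rw [ellNorm, hsum]
  constructor
  · rw [← hroot _ (by linarith)]
    refine Real.rpow_le_rpow (by positivity) ?_ (by positivity)
    rw [div_mul_eq_mul_div, le_div_iff₀ hNpos]
    nlinarith [hj.1]
  · have hT0 : 0 ≤ T := Finset.sum_nonneg fun k _ => hZ0 _ _
    rw [← hroot _ (by linarith)]
    refine Real.rpow_le_rpow (by positivity) ?_ (by positivity)
    rw [div_mul_eq_mul_div, div_le_iff₀ hNpos]
    nlinarith [hj.2]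

theorem exists_density (hp : 1 ≤ p) (X : Finset (Lp ℝ (ENNReal.ofReal p) μ))
    (hX : 2 ≤ X.card) :
    ∃ (w : α → ℝ) (S : ℝ), Measurable w ∧ (∀ a, 0 ≤ w a) ∧ Integrable w μ ∧ 0 < S ∧
      S ≤ (Nat.log 2 X.card + 1) * (X.card * (Nat.log 2 X.card + 3)) ∧ ∫ a, w a ∂μ = S ∧
      ∀ x ∈ X, ∀ y ∈ X, ∀ a, |x a - y a| ^ p ≤
        (2 * (Nat.log 2 X.card + 1)) ^ p * ‖x - y‖ ^ p * w a := by
  classical
  have hp0 : 0 < p := by linarith
  have : Fact (1 ≤ ENNReal.ofReal p) := ⟨by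
    rw [← ENNReal.ofReal_one]
    exact ENNReal.ofReal_le_ofReal hp⟩
  obtain ⟨E, hEc, hE⟩ := exists_spanner (X := X) (fun x y => ‖x.1 - y.1‖) (by simp)
    (fun x y => norm_sub_rev _ _) (fun x y z => norm_sub_le_norm_sub_add_norm_sub _ _ _)
    (fun x y => norm_nonneg _)
  rw [Fintype.card_coe] at hEc hE
  set L := Nat.log 2 X.card with hL
  set E' := E.filter fun q => q.1 ≠ q.2 with hE'
  set g : X × X → α → ℝ := fun q a => |q.1.1 a - q.2.1 a| ^ p / ‖q.1.1 - q.2.1‖ ^ p with hg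
  have hgm : ∀ q, Measurable (g q) := by
    intro q
    have h1 : Measurable (q.1.1 : α → ℝ) := (Lp.stronglyMeasurable _).measurable
    have h2 : Measurable (q.2.1 : α → ℝ) := (Lp.stronglyMeasurable _).measurable
    exact ((h1.sub h2).abs.pow_const p).div_const _
  have hg0 : ∀ q a, 0 ≤ g q a := fun q a => by
    simp only [hg]
    positivity
  have hgi : ∀ q, Integrable (g q) μ := fun q => (norm_sub_rpow hp _ _).1.div_const _
  have hg1 : ∀ q ∈ E', ∫ a, g q a ∂μ = 1 := by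
    intro q hq
    have hne : q.1 ≠ q.2 := (Finset.mem_filter.1 hq).2
    have hpos : 0 < ‖q.1.1 - q.2.1‖ ^ p :=
      Real.rpow_pos_of_pos (norm_pos_iff.2 (sub_ne_zero.2 fun h => hne (Subtype.ext h))) p
    simp only [hg]
    rw [integral_div, (norm_sub_rpow hp _ _).2, div_self hpos.ne']
  have hEpos : 0 < E'.card := by
    rw [Finset.card_pos]
    obtain ⟨x, hx, y, hy, hxy⟩ := Finset.one_lt_card.1 (by omega : 1 < X.card)
    obtain ⟨z, hz1, hz2, -, -⟩ := hE ⟨x, hx⟩ ⟨y, hy⟩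
    by_cases h : (⟨x, hx⟩ : X) = z
    · refine ⟨(⟨y, hy⟩, z), Finset.mem_filter.2 ⟨hz2, ?_⟩⟩
      intro h'
      have h' : (⟨y, hy⟩ : X) = z := h'
      exact hxy (by rw [← h'] at h; exact congrArg Subtype.val h)
    · exact ⟨(⟨x, hx⟩, z), Finset.mem_filter.2 ⟨hz1, h⟩⟩
  have hone : ∀ x z : X, (x, z) ∈ E → ∀ (r : ℝ), ‖x.1 - z.1‖ ≤ (L + 1) * r → 0 ≤ r → ∀ a,
      |x.1 a - z.1 a| ^ p ≤ (L + 1) ^ p * r ^ p * ∑ q ∈ E', g q a := by
    intro x z hxz r hr hr0 a
    have hs0 : 0 ≤ ∑ q ∈ E', g q a := Finset.sum_nonneg fun q _ => hg0 q a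
    by_cases h : x = z
    · rw [h, sub_self, abs_zero, Real.zero_rpow hp0.ne']
      positivity
    · have hpos : 0 < ‖x.1 - z.1‖ ^ p :=
        Real.rpow_pos_of_pos (norm_pos_iff.2 (sub_ne_zero.2 fun h' => h (Subtype.ext h'))) p
      have h1 : g (x, z) a ≤ ∑ q ∈ E', g q a :=
        Finset.single_le_sum (fun q _ => hg0 q a) (Finset.mem_filter.2 ⟨hxz, h⟩)
      have h2 : |x.1 a - z.1 a| ^ p = ‖x.1 - z.1‖ ^ p * g (x, z) a := by
        simp only [hg]
        field_simp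
      rw [h2, ← Real.mul_rpow (by positivity) hr0]
      exact mul_le_mul (Real.rpow_le_rpow (norm_nonneg _) hr hp0.le) h1 (hg0 _ _)
        (by positivity)
  refine ⟨fun a => ∑ q ∈ E', g q a, E'.card, ?_, ?_, ?_, ?_, ?_, ?_, ?_⟩
  · exact Finset.measurable_fun_sum _ fun q _ => hgm q
  · exact fun a => Finset.sum_nonneg fun q _ => hg0 q a
  · exact integrable_finsetSum _ fun q _ => hgi q
  · exact_mod_cast hEpos
  · exact_mod_cast (Finset.card_filter_le _ _).trans hEc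
  · rw [integral_finsetSum _ fun q _ => hgi q, Finset.sum_congr rfl hg1]
    simp
  · intro x hx y hy a
    obtain ⟨z, hz1, hz2, hz3, hz4⟩ := hE ⟨x, hx⟩ ⟨y, hy⟩
    have h1 := hone ⟨x, hx⟩ z hz1 ‖x - y‖ hz3 (norm_nonneg _) a
    have h2 := hone ⟨y, hy⟩ z hz2 ‖x - y‖ hz4 (norm_nonneg _) a
    simp only at h1 h2
    have h3 : |x a - y a| ≤ |x a - z.1 a| + |y a - z.1 a| := by
      have := abs_sub_le (x a) (z.1 a) (y a)
      rwa [abs_sub_comm (z.1 a) (y a)] at this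
    have h4 : |x a - y a| ≤ 2 * max |x a - z.1 a| |y a - z.1 a| := by
      have := le_max_left |x a - z.1 a| |y a - z.1 a|
      have := le_max_right |x a - z.1 a| |y a - z.1 a|
      linarith
    calc |x a - y a| ^ p ≤ (2 * max |x a - z.1 a| |y a - z.1 a|) ^ p :=
          Real.rpow_le_rpow (abs_nonneg _) h4 hp0.le
      _ = 2 ^ p * (max |x a - z.1 a| |y a - z.1 a|) ^ p := by
          rw [Real.mul_rpow (by norm_num) (le_max_of_le_left (abs_nonneg _))]
      _ ≤ 2 ^ p * ((L + 1) ^ p * ‖x - y‖ ^ p * ∑ q ∈ E', g q a) := by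
          refine mul_le_mul_of_nonneg_left ?_ (by positivity)
          rcases max_choice |x a - z.1 a| |y a - z.1 a| with h | h
          · rw [h]; exact h1
          · rw [h]; exact h2
      _ = (2 * (L + 1)) ^ p * ‖x - y‖ ^ p * ∑ q ∈ E', g q a := by
          rw [Real.mul_rpow (by norm_num) (by positivity)]
          ring

end

theorem upper.{u} {p D : ℝ} (hp : 1 ≤ p) (hD : 1 < D) :
    ∃ C : ℝ, 0 < C ∧ ∀ n : ℕ, 2 ≤ n → ∃ d : ℕ, (d : ℝ) ≤ C * n * Real.log n ^ (p + 3) ∧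
      Suffices.{u} p D n d := by
  have hp0 : 0 < p := by linarith
  -- the accuracy
  obtain ⟨ε, hε, hε1, hεD⟩ : ∃ ε : ℝ, 0 < ε ∧ ε < 1 ∧ 1 + ε ≤ D * (1 - ε) := by
    refine ⟨(D - 1) / (D + 1), by apply div_pos <;> linarith, ?_, ?_⟩
    · rw [div_lt_one (by linarith)]; linarith
    · have : 0 < D + 1 := by linarith
      refine le_of_eq ?_
      field_simp
      ring
  have hlog2 : 0 < Real.log 2 := Real.log_pos (by norm_num)
  refine ⟨4 * (3 * 6 * 6 ^ p) / ε ^ 2 * 3 + (Real.log 2 ^ (p + 3))⁻¹, by positivity,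
    fun n hn => ?_⟩
  set L := Nat.log 2 n with hL
  have hn0 : (0 : ℝ) < n := by positivity
  have hn2 : (2 : ℝ) ≤ n := by exact_mod_cast hn
  have hln : Real.log 2 ≤ Real.log n := Real.log_le_log (by norm_num) hn2
  have hln0 : 0 < Real.log n := by linarith
  have hL1 : 1 ≤ L := Nat.log_pos (by norm_num) hn
  have hL1' : (1 : ℝ) ≤ L := by exact_mod_cast hL1
  have hLle : (L : ℝ) * Real.log 2 ≤ Real.log n := by
    have h1 : 2 ^ L ≤ n := Nat.pow_log_le_self 2 (by omega)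
    have h2 : ((2 : ℝ) ^ L) ≤ n := by exact_mod_cast h1
    calc (L : ℝ) * Real.log 2 = Real.log (2 ^ L) := by rw [Real.log_pow]
      _ ≤ Real.log n := Real.log_le_log (by positivity) h2
  have hl2 := Real.log_two_gt_d9
  have hL3 : (L : ℝ) + 1 ≤ 3 * Real.log n := by nlinarith
  have hL6 : (L : ℝ) + 3 ≤ 6 * Real.log n := by nlinarith
  have hlog2n : Real.log (2 * (n : ℝ) ^ 2) ≤ 3 * Real.log n := by
    rw [Real.log_mul (by norm_num) (by positivity), Real.log_pow]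
    push_cast
    linarith
  set S0 : ℝ := (L + 1) * (n * (L + 3)) with hS0
  set K : ℝ := (2 * (L + 1)) ^ p with hK
  have hKpos : 0 < K := by positivity
  set B : ℝ := 4 * (S0 * K) / ε ^ 2 * Real.log (2 * (n : ℝ) ^ 2) with hB
  have hB0 : 0 ≤ B := by
    have : 0 ≤ Real.log (2 * (n : ℝ) ^ 2) := Real.log_nonneg (by nlinarith)
    positivity
  refine ⟨⌊B⌋₊ + 1, ?_, ?_⟩
  · have h1 : (⌊B⌋₊ : ℝ) ≤ B := Nat.floor_le hB0
    push_cast
    have hK2 : K ≤ 6 ^ p * Real.log n ^ p := by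
      rw [hK, ← Real.mul_rpow (by norm_num) hln0.le]
      exact Real.rpow_le_rpow (by positivity) (by linarith) hp0.le
    have hS2 : S0 ≤ (3 * Real.log n) * (n * (6 * Real.log n)) := by
      rw [hS0]
      gcongr
    have h2 : B ≤ 4 * (3 * 6 * 6 ^ p) / ε ^ 2 * 3 * n * Real.log n ^ (p + 3) := by
      have h3 : Real.log n ^ (p + 3) = Real.log n ^ p * (Real.log n) ^ 3 := by
        rw [Real.rpow_add hln0]
        norm_cast
      rw [h3]
      have hlnn : 0 ≤ Real.log (2 * (n : ℝ) ^ 2) := Real.log_nonneg (by nlinarith)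
      calc B ≤ 4 * (((3 * Real.log n) * (n * (6 * Real.log n))) * (6 ^ p * Real.log n ^ p)) /
            ε ^ 2 * (3 * Real.log n) := by
            rw [hB]
            gcongr
        _ = _ := by ring
    have h4 : 1 ≤ (Real.log 2 ^ (p + 3))⁻¹ * n * Real.log n ^ (p + 3) := by
      have h5 : Real.log 2 ^ (p + 3) ≤ Real.log n ^ (p + 3) :=
        Real.rpow_le_rpow hlog2.le hln (by linarith)
      have h6 : 0 < Real.log 2 ^ (p + 3) := by positivity
      calc (1 : ℝ) = (Real.log 2 ^ (p + 3))⁻¹ * 1 * Real.log 2 ^ (p + 3) := by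
            rw [mul_one, inv_mul_cancel₀ h6.ne']
        _ ≤ _ := by
            gcongr
            linarith
    calc (⌊B⌋₊ : ℝ) + 1 ≤ 4 * (3 * 6 * 6 ^ p) / ε ^ 2 * 3 * n * Real.log n ^ (p + 3) +
          (Real.log 2 ^ (p + 3))⁻¹ * n * Real.log n ^ (p + 3) := by linarith
      _ = _ := by ring
  · intro α _ μ X hX
    have : Fact (1 ≤ ENNReal.ofReal p) := ⟨by
      rw [← ENNReal.ofReal_one]
      exact ENNReal.ofReal_le_ofReal hp⟩
    obtain ⟨w, S, hwm, hw0, hwi, hS, hSle, hwS, hdom⟩ := exists_density hp X (by omega)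
    rw [hX] at hSle hdom
    have hN : 4 * (S * K) / ε ^ 2 * Real.log (2 * (X.card : ℝ) ^ 2) < ((⌊B⌋₊ + 1 : ℕ) : ℝ) := by
      have h1 : B < (⌊B⌋₊ : ℝ) + 1 := Nat.lt_floor_add_one B
      push_cast
      refine lt_of_le_of_lt ?_ h1
      rw [hX, hB]
      have : 0 ≤ Real.log (2 * (n : ℝ) ^ 2) := Real.log_nonneg (by nlinarith)
      gcongr
    obtain ⟨f, hf⟩ := embed_of_density hp X (by omega) w hwm hw0 hwi hS hwS hKpos hdom hε hε1 hN
    refine ⟨f, (1 - ε) ^ (1 / p), Real.rpow_pos_of_pos (by linarith) _, fun x hx y hy => ?_⟩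
    obtain ⟨h1, h2⟩ := hf x hx y hy
    refine ⟨h1, h2.trans ?_⟩
    refine mul_le_mul_of_nonneg_right ?_ (norm_nonneg _)
    calc (1 + ε) ^ (1 / p) ≤ (D * (1 - ε)) ^ (1 / p) :=
          Real.rpow_le_rpow (by linarith) hεD (by positivity)
      _ = D ^ (1 / p) * (1 - ε) ^ (1 / p) := Real.mul_rpow (by linarith) (by linarith)
      _ ≤ D * (1 - ε) ^ (1 / p) := by
          refine mul_le_mul_of_nonneg_right ?_ (Real.rpow_nonneg (by linarith) _)
          calc D ^ (1 / p) ≤ D ^ (1 : ℝ) :=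
                Real.rpow_le_rpow_of_exponent_le hD.le (by rw [div_le_one hp0]; exact hp)
            _ = D := Real.rpow_one D

end P249
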